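import Mathlib

/-!
R1, structure theorem (ST), part 1: the auxiliary polynomial by the pigeonhole principle.
-/

namespace Crest.Agent.R1.ST

open Finset Polynomial

/-- the value of the polynomial with coefficient array `c` at `(x, y)`. -/
def val {D : ℕ} (c : Fin D × Fin D → ℤ) (x y : ℤ) : ℤ :=
  ∑ ij : Fin D × Fin D, c ij * x ^ (ij.1 : ℕ) * y ^ (ij.2 : ℕ)

/-- restriction of the polynomial to the line `y = a - r x` modulo `g`. -/
noncomputable def restr (g : ℕ) {D : ℕ} (c : Fin D × Fin D → ℤ) (a : ZMod g) (r : ZMod g) :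
    (ZMod g)[X] :=
  ∑ ij : Fin D × Fin D, C ((c ij : ℤ) : ZMod g) * X ^ (ij.1 : ℕ) * (C a - C r * X) ^ (ij.2 : ℕ)

lemma restr_natDegree_lt (g : ℕ) {D : ℕ} (hD : 0 < D) (c : Fin D × Fin D → ℤ) (a r : ZMod g) :
    (restr g c a r).natDegree < 2 * D := by
  have : (restr g c a r).natDegree ≤ 2 * D - 1 := by
    unfold restr
    refine natDegree_sum_le_of_forall_le _ _ (fun ij _ => ?_)
    have h1 : (C a - C r * X : (ZMod g)[X]).natDegree ≤ 1 := by
      refine (natDegree_sub_le _ _).trans ?_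
      rw [natDegree_C]
      exact max_le (by norm_num) ((natDegree_C_mul_le _ _).trans natDegree_X_le)
    have h2 : (C ((c ij : ℤ) : ZMod g) * X ^ (ij.1 : ℕ) : (ZMod g)[X]).natDegree ≤ ij.1 :=
      natDegree_C_mul_X_pow_le _ _
    have h3 : ((C a - C r * X : (ZMod g)[X]) ^ (ij.2 : ℕ)).natDegree ≤ ij.2 :=
      (natDegree_pow_le).trans (by nlinarith [h1])
    refine (natDegree_mul_le).trans ?_
    have := ij.1.2; have := ij.2.2
    omega
  omega

lemma restr_eval (g : ℕ) {D : ℕ} (c : Fin D × Fin D → ℤ) (a : ℤ) (r : ZMod g) (x y : ℤ)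
    (h : ((a - y : ℤ) : ZMod g) = r * x) :
    (restr g c (a : ZMod g) r).eval (x : ZMod g) = ((val c x y : ℤ) : ZMod g) := by
  unfold restr val
  rw [eval_finsetSum]
  push_cast
  refine Finset.sum_congr rfl (fun ij _ => ?_)
  simp only [eval_mul, eval_C, eval_pow, eval_X, eval_sub]
  congr 2
  push_cast at h
  rw [← h]; ring

lemma restr_sub (g : ℕ) {D : ℕ} (c c' : Fin D × Fin D → ℤ) (a r : ZMod g) :
    restr g (c - c') a r = restr g c a r - restr g c' a r := by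
  unfold restr
  rw [← Finset.sum_sub_distrib]
  refine Finset.sum_congr rfl (fun ij _ => ?_)
  simp only [Pi.sub_apply, Int.cast_sub, C_sub]
  ring

/-- Auxiliary polynomial. -/
theorem exists_poly (GG : Finset ℕ) (hGG : ∀ g ∈ GG, g.Prime) (G BB D H : ℕ)
    (hG : ∀ g ∈ GG, g ≤ G) (hG1 : 1 ≤ G) (a : ℕ → ℤ) (R : ∀ g : ℕ, Finset (ZMod g))
    (hR : ∑ g ∈ GG, (R g).card ≤ BB) (hD : 0 < D)
    (hcount : G ^ (2 * D * BB) < (H + 1) ^ (D * D)) :
    ∃ c : Fin D × Fin D → ℤ, c ≠ 0 ∧ (∀ ij, |c ij| ≤ H) ∧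
      ∀ g ∈ GG, ∀ r ∈ R g, ∀ x y : ℤ, ((a g - y : ℤ) : ZMod g) = r * x →
        ((val c x y : ℤ) : ZMod g) = 0 := by
  classical
  have hne : ∀ g : GG, NeZero (g : ℕ) := fun g => ⟨(hGG g g.2).ne_zero⟩
  let A := Fin D × Fin D → Fin (H + 1)
  let Bt := ∀ g : GG, ∀ _ : (R (g : ℕ)), Fin (2 * D) → ZMod (g : ℕ)
  let toI : A → (Fin D × Fin D → ℤ) := fun c ij => ((c ij : ℕ) : ℤ)
  let Φ : A → Bt := fun c g r k => (restr (g : ℕ) (toI c) ((a g : ℤ) : ZMod (g : ℕ)) r).coeff k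
  have hcardA : Fintype.card A = (H + 1) ^ (D * D) := by
    simp [A, Fintype.card_fin]
  have hcardB : Fintype.card Bt ≤ G ^ (2 * D * BB) := by
    simp only [Bt, Fintype.card_pi, Finset.prod_const, Finset.card_univ, Fintype.card_fin,
      ZMod.card, Fintype.card_coe]
    calc ∏ x : GG, ((x : ℕ) ^ (2 * D)) ^ (R (x : ℕ)).card
        ≤ ∏ x : GG, G ^ (2 * D * (R (x : ℕ)).card) := by
          refine Finset.prod_le_prod (fun _ _ => Nat.zero_le _) (fun x _ => ?_)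
          rw [← pow_mul]
          exact Nat.pow_le_pow_left (hG x x.2) _
      _ = G ^ (2 * D * ∑ g ∈ GG, (R g).card) := by
          rw [Finset.prod_pow_eq_pow_sum, ← Finset.mul_sum,
            Finset.sum_coe_sort GG (fun g => (R g).card)]
      _ ≤ G ^ (2 * D * BB) := Nat.pow_le_pow_right hG1 (Nat.mul_le_mul_left _ hR)
  obtain ⟨c1, c2, hne12, heq⟩ := Fintype.exists_ne_map_eq_of_card_lt Φ (by
    rw [hcardA]; exact lt_of_le_of_lt hcardB hcount)
  refine ⟨toI c1 - toI c2, ?_, ?_, ?_⟩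
  · intro h0
    apply hne12
    funext ij
    have := congrFun h0 ij
    simp only [toI, Pi.sub_apply, Pi.zero_apply] at this
    apply Fin.ext
    omega
  · intro ij
    simp only [toI, Pi.sub_apply]
    have h1 := (c1 ij).2; have h2 := (c2 ij).2
    rw [abs_le]; constructor <;> omega
  · intro g hg r hr x y hxy
    have hz : restr g (toI c1 - toI c2) ((a g : ℤ) : ZMod g) r = 0 := by
      rw [restr_sub]
      ext k
      rw [coeff_sub, coeff_zero]
      by_cases hk : k < 2 * D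
      · have := congrFun (congrFun (congrFun heq ⟨g, hg⟩) ⟨r, hr⟩) ⟨k, hk⟩
        simp only [Φ] at this
        rw [this]; ring
      · rw [coeff_eq_zero_of_natDegree_lt, coeff_eq_zero_of_natDegree_lt, sub_zero]
        · exact lt_of_lt_of_le (restr_natDegree_lt g hD _ _ _) (by omega)
        · exact lt_of_lt_of_le (restr_natDegree_lt g hD _ _ _) (by omega)
    rw [← restr_eval g _ (a g) r x y hxy, hz, eval_zero]

/-- an integer divisible by many primes and small is zero. -/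
theorem eq_zero_of_primes (N : ℤ) (S : Finset ℕ) (hp : ∀ g ∈ S, g.Prime)
    (hdiv : ∀ g ∈ S, (g : ℤ) ∣ N) (hlt : |N| < ∏ g ∈ S, (g : ℤ)) : N = 0 := by
  have h1 : (∏ g ∈ S, g) ∣ N.natAbs := by
    refine Finset.prod_primes_dvd _ (fun g hg => (hp g hg).prime) (fun g hg => ?_)
    exact Int.natCast_dvd.mp (hdiv g hg)
  by_contra hN
  have h2 : (∏ g ∈ S, g) ≤ N.natAbs := Nat.le_of_dvd (Int.natAbs_pos.mpr hN) h1
  have h3 : ((∏ g ∈ S, g : ℕ) : ℤ) ≤ |N| := by
    rw [Int.abs_eq_natAbs]; exact_mod_cast h2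
  push_cast at h3
  omega

lemma abs_val_le {D : ℕ} (c : Fin D × Fin D → ℤ) (H : ℕ) (hc : ∀ ij, |c ij| ≤ H) (x y : ℤ)
    (T : ℕ) (hT : 1 ≤ T) (hx : |x| ≤ T) (hy : |y| ≤ T) :
    |val c x y| ≤ D * D * H * T ^ (2 * D) := by
  unfold val
  calc |∑ ij : Fin D × Fin D, c ij * x ^ (ij.1 : ℕ) * y ^ (ij.2 : ℕ)|
      ≤ ∑ ij : Fin D × Fin D, |c ij * x ^ (ij.1 : ℕ) * y ^ (ij.2 : ℕ)| :=
        Finset.abs_sum_le_sum_abs _ _
    _ ≤ ∑ _ij : Fin D × Fin D, (H : ℤ) * T ^ (2 * D) := by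
        refine Finset.sum_le_sum (fun ij _ => ?_)
        rw [abs_mul, abs_mul, abs_pow, abs_pow]
        have hT' : (1 : ℤ) ≤ T := by exact_mod_cast hT
        have h1 : |x| ^ (ij.1 : ℕ) ≤ (T : ℤ) ^ D :=
          (pow_le_pow_left₀ (abs_nonneg _) hx _).trans (pow_le_pow_right₀ hT' ij.1.2.le)
        have h2 : |y| ^ (ij.2 : ℕ) ≤ (T : ℤ) ^ D :=
          (pow_le_pow_left₀ (abs_nonneg _) hy _).trans (pow_le_pow_right₀ hT' ij.2.2.le)
        have h0 := hc ij
        calc |c ij| * |x| ^ (ij.1 : ℕ) * |y| ^ (ij.2 : ℕ) ≤ (H : ℤ) * T ^ D * T ^ D := by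
              gcongr
          _ = (H : ℤ) * T ^ (2 * D) := by rw [two_mul, pow_add]; ring
    _ = D * D * H * T ^ (2 * D) := by
        simp only [Finset.sum_const, Finset.card_univ, Fintype.card_prod, Fintype.card_fin]
        simp; ring

end Crest.Agent.R1.ST
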