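import Crest.Agent.R1.ST1

/-!
R1, structure theorem (ST), part 2: stratification by the multiplicity in the `y` direction.
-/

namespace Crest.Agent.R1.ST

open Finset Polynomial

/-- the bivariate polynomial (outer variable `y`, inner variable `x`). -/
noncomputable def bip {D : ℕ} (c : Fin D × Fin D → ℤ) : ℤ[X][X] :=
  ∑ ij : Fin D × Fin D, C (C (c ij) * X ^ (ij.1 : ℕ)) * X ^ (ij.2 : ℕ)

/-- specialisation `x = e`. -/
noncomputable def spec (e : ℤ) (f : ℤ[X][X]) : ℤ[X] := f.map (evalRingHom e)

lemma spec_bip {D : ℕ} (c : Fin D × Fin D → ℤ) (e : ℤ) :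
    spec e (bip c) = ∑ ij : Fin D × Fin D, C (c ij * e ^ (ij.1 : ℕ)) * X ^ (ij.2 : ℕ) := by
  unfold spec bip
  rw [Polynomial.map_sum]
  refine Finset.sum_congr rfl (fun ij _ => ?_)
  simp [Polynomial.map_mul]

lemma spec_bip_eval {D : ℕ} (c : Fin D × Fin D → ℤ) (e y : ℤ) :
    (spec e (bip c)).eval y = val c e y := by
  rw [spec_bip, eval_finsetSum]
  unfold val
  refine Finset.sum_congr rfl (fun ij _ => ?_)
  simp

lemma bip_natDegree_lt {D : ℕ} (hD : 0 < D) (c : Fin D × Fin D → ℤ) :
    (bip c).natDegree < D := by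
  have : (bip c).natDegree ≤ D - 1 := by
    unfold bip
    refine natDegree_sum_le_of_forall_le _ _ (fun ij _ => ?_)
    refine (natDegree_C_mul_X_pow_le _ _).trans ?_
    have := ij.2.2
    omega
  omega

lemma spec_bip_coeff {D : ℕ} (c : Fin D × Fin D → ℤ) (e : ℤ) (k : ℕ) :
    (spec e (bip c)).coeff k =
      if h : k < D then ∑ i : Fin D, c (i, ⟨k, h⟩) * e ^ (i : ℕ) else 0 := by
  rw [spec_bip, finsetSum_coeff]
  simp only [coeff_C_mul, coeff_X_pow]
  rw [Fintype.sum_prod_type]
  split_ifs with h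
  · refine Finset.sum_congr rfl (fun i _ => ?_)
    rw [Finset.sum_eq_single (⟨k, h⟩ : Fin D)]
    · simp
    · intro j _ hj
      have : ¬ k = (j : ℕ) := fun hk => hj (Fin.ext hk.symm)
      simp [this]
    · simp
  · refine Finset.sum_eq_zero (fun i _ => Finset.sum_eq_zero (fun j _ => ?_))
    have : ¬ k = (j : ℕ) := fun hk => h (hk ▸ j.2)
    simp [this]

/-- few specialisations vanish identically. -/
lemma card_spec_zero {D : ℕ} (c : Fin D × Fin D → ℤ) (hc : c ≠ 0) (E : Finset ℤ) :
    (E.filter (fun e => spec e (bip c) = 0)).card ≤ D := by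
  classical
  obtain ⟨⟨i0, j0⟩, h0⟩ : ∃ ij, c ij ≠ 0 := by
    by_contra h
    push Not at h
    exact hc (funext h)
  let p : ℤ[X] := ∑ i : Fin D, C (c (i, j0)) * X ^ (i : ℕ)
  have hpc : ∀ i : Fin D, p.coeff i = c (i, j0) := by
    intro i
    simp only [p, finsetSum_coeff, coeff_C_mul, coeff_X_pow]
    rw [Finset.sum_eq_single i]
    · simp
    · intro j _ hj
      have : ¬ (i : ℕ) = (j : ℕ) := fun hk => hj (Fin.ext hk.symm)
      simp [this]
    · simp
  have hp0 : p ≠ 0 := by
    intro h
    apply h0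
    rw [← hpc i0, h, coeff_zero]
  have hsub : (E.filter (fun e => spec e (bip c) = 0)) ⊆ p.roots.toFinset := by
    intro e he
    rw [Finset.mem_filter] at he
    rw [Multiset.mem_toFinset, mem_roots hp0, IsRoot.def]
    have h1 := spec_bip_coeff c e j0
    rw [he.2, coeff_zero, dif_pos j0.2] at h1
    simp only [p, eval_finsetSum, eval_mul, eval_C, eval_pow, eval_X]
    exact h1.symm
  calc _ ≤ p.roots.toFinset.card := Finset.card_le_card hsub
    _ ≤ p.roots.card := Multiset.toFinset_card_le _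
    _ ≤ p.natDegree := p.card_roots'
    _ ≤ D := by
      refine natDegree_sum_le_of_forall_le _ _ (fun i _ => ?_)
      exact (natDegree_C_mul_X_pow_le _ _).trans i.2.le

lemma spec_iterate_derivative (e : ℤ) (f : ℤ[X][X]) (k : ℕ) :
    spec e (derivative^[k] f) = derivative^[k] (spec e f) := by
  unfold spec
  rw [Polynomial.iterate_derivative_map]

lemma spec_derivative (e : ℤ) (f : ℤ[X][X]) :
    spec e (derivative f) = derivative (spec e f) := by
  unfold spec
  rw [Polynomial.derivative_map]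

/-- stratification: at a positive proportion `1/D` of the points the same `y`-derivative of `f`
vanishes while its derivative does not. -/
theorem stratify {D : ℕ} (hD : 0 < D) (c : Fin D × Fin D → ℤ) (hc : c ≠ 0) (E : Finset ℤ)
    (n : ℤ → ℤ) (hval : ∀ e ∈ E, val c e (n e) = 0) :
    ∃ j < D, E.card ≤ D + D * (E.filter (fun e =>
      (spec e (derivative^[j] (bip c))).eval (n e) = 0 ∧
      (spec e (derivative (derivative^[j] (bip c)))).eval (n e) ≠ 0)).card := by
  classical
  set E0 := E.filter (fun e => ¬ spec e (bip c) = 0) with hE0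
  have hE0c : E.card ≤ D + E0.card := by
    have h1 : (E.filter (fun e => spec e (bip c) = 0)).card + E0.card = E.card := by
      rw [hE0]; convert Finset.card_filter_add_card_filter_not (s := E) (fun e => spec e (bip c) = 0)
    have h2 := card_spec_zero c hc E
    omega
  let m : ℤ → ℕ := fun e => (spec e (bip c)).rootMultiplicity (n e) - 1
  have hm : ∀ e ∈ E0, 1 ≤ (spec e (bip c)).rootMultiplicity (n e) ∧ m e < D := by
    intro e he
    rw [hE0, Finset.mem_filter] at he
    have hr : (spec e (bip c)).IsRoot (n e) := by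
      rw [IsRoot.def, spec_bip_eval]; exact hval e he.1
    have h1 : 0 < (spec e (bip c)).rootMultiplicity (n e) :=
      (rootMultiplicity_pos he.2).2 hr
    have h2 : (spec e (bip c)).rootMultiplicity (n e) ≤ D - 1 := by
      have h3 : (spec e (bip c)).rootMultiplicity (n e) ≤ (spec e (bip c)).natDegree := by
        have := rootMultiplicity_le_iff he.2 (n e)
          ((spec e (bip c)).natDegree)
        rw [this]
        intro hdvd
        have := natDegree_le_of_dvd hdvd he.2
        rw [natDegree_pow, natDegree_X_sub_C] at this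
        omega
      have h4 : (spec e (bip c)).natDegree ≤ (bip c).natDegree := natDegree_map_le
      have h5 := bip_natDegree_lt hD c
      omega
    refine ⟨h1, ?_⟩
    simp only [m]; omega
  obtain ⟨j, hj, hjc⟩ : ∃ j ∈ Finset.range D, E0.card ≤ D * (E0.filter (fun e => m e = j)).card := by
    by_contra hcon
    push Not at hcon
    have h1 : E0.card = ∑ j ∈ Finset.range D, (E0.filter (fun e => m e = j)).card :=
      Finset.card_eq_sum_card_fiberwise (fun e he => Finset.mem_coe.2 (Finset.mem_range.2 (hm e he).2))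
    have h2 : D * E0.card < D * E0.card := by
      calc D * E0.card = ∑ j ∈ Finset.range D, D * (E0.filter (fun e => m e = j)).card := by
            rw [h1, Finset.mul_sum]
        _ < ∑ j ∈ Finset.range D, E0.card :=
            Finset.sum_lt_sum_of_nonempty ⟨0, Finset.mem_range.2 hD⟩ (fun j hj => hcon j hj)
        _ = D * E0.card := by rw [Finset.sum_const, Finset.card_range, smul_eq_mul]
    exact lt_irrefl _ h2
  refine ⟨j, Finset.mem_range.1 hj, ?_⟩
  have hsub : (E0.filter (fun e => m e = j)) ⊆ (E.filter (fun e =>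
      (spec e (derivative^[j] (bip c))).eval (n e) = 0 ∧
      (spec e (derivative (derivative^[j] (bip c)))).eval (n e) ≠ 0)) := by
    intro e he
    rw [Finset.mem_filter] at he ⊢
    obtain ⟨he0, hme⟩ := he
    have he0' := he0
    rw [hE0, Finset.mem_filter] at he0'
    obtain ⟨h1, h2⟩ := hm e he0
    refine ⟨he0'.1, ?_, ?_⟩
    · rw [spec_iterate_derivative]
      have : j < (spec e (bip c)).rootMultiplicity (n e) := by
        simp only [m] at hme; omega
      exact isRoot_iterate_derivative_of_lt_rootMultiplicity this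
    · rw [spec_derivative, spec_iterate_derivative, ← Function.iterate_succ_apply' (f := derivative)]
      have hj1 : j.succ = (spec e (bip c)).rootMultiplicity (n e) := by
        simp only [m] at hme; omega
      rw [hj1, eval_iterate_derivative_rootMultiplicity]
      have h3 := eval_divByMonic_pow_rootMultiplicity_ne_zero (n e) he0'.2
      rw [nsmul_eq_mul]
      exact mul_ne_zero (by exact_mod_cast (Nat.factorial_ne_zero _)) h3
  calc E.card ≤ D + E0.card := hE0c
    _ ≤ D + D * (E0.filter (fun e => m e = j)).card := by omega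
    _ ≤ _ := by
      have := Finset.card_le_card hsub
      gcongr

/-- coefficient bounds under differentiation. -/
lemma iterate_derivative_coeff_le (p : ℤ[X]) (D : ℕ) (hdeg : p.natDegree < D) (M : ℤ)
    (hM : ∀ k, |p.coeff k| ≤ M) (j : ℕ) :
    (derivative^[j] p).natDegree < D ∧ ∀ k, |(derivative^[j] p).coeff k| ≤ M * D ^ j := by
  induction j with
  | zero => exact ⟨hdeg, fun k => by simpa using hM k⟩
  | succ j ih =>
    rw [Function.iterate_succ_apply']
    obtain ⟨h1, h2⟩ := ih
    refine ⟨lt_of_le_of_lt ((natDegree_derivative_le _).trans (by omega)) h1, fun k => ?_⟩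
    rw [coeff_derivative]
    by_cases hk : k + 1 < D
    · rw [abs_mul]
      have h3 := h2 (k + 1)
      have h4 : |((k : ℤ) + 1)| ≤ D := by
        rw [abs_of_nonneg (by positivity)]; exact_mod_cast hk.le
      calc |(derivative^[j] p).coeff (k + 1)| * |((k : ℤ) + 1)| ≤ (M * D ^ j) * D :=
            mul_le_mul h3 h4 (abs_nonneg _) ((abs_nonneg _).trans h3)
        _ = M * D ^ (j + 1) := by ring
    · rw [coeff_eq_zero_of_natDegree_lt (lt_of_lt_of_le h1 (not_lt.mp hk)), zero_mul, abs_zero]
      have h0 : 0 ≤ M := (abs_nonneg _).trans (hM 0)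
      positivity

lemma eval_abs_le (p : ℤ[X]) (D : ℕ) (hdeg : p.natDegree < D) (M : ℤ)
    (hM : ∀ k, |p.coeff k| ≤ M) (y : ℤ) (T : ℕ) (hT : 1 ≤ T) (hy : |y| ≤ T) :
    |p.eval y| ≤ D * M * T ^ D := by
  rw [eval_eq_sum_range' hdeg]
  have hT' : (1 : ℤ) ≤ T := by exact_mod_cast hT
  have h0 : 0 ≤ M := (abs_nonneg _).trans (hM 0)
  calc |∑ i ∈ range D, p.coeff i * y ^ i| ≤ ∑ i ∈ range D, |p.coeff i * y ^ i| :=
        Finset.abs_sum_le_sum_abs _ _
    _ ≤ ∑ _i ∈ range D, M * T ^ D := by
        refine Finset.sum_le_sum (fun i hi => ?_)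
        rw [abs_mul, abs_pow]
        have h1 : |y| ^ i ≤ (T : ℤ) ^ D :=
          (pow_le_pow_left₀ (abs_nonneg _) hy _).trans (pow_le_pow_right₀ hT' (mem_range.1 hi).le)
        exact mul_le_mul (hM i) h1 (by positivity) h0
    _ = D * M * T ^ D := by rw [sum_const, card_range, nsmul_eq_mul]; ring

lemma abs_spec_derivative_le {D : ℕ} (hD : 0 < D) (c : Fin D × Fin D → ℤ) (H : ℕ)
    (hc : ∀ ij, |c ij| ≤ H) (e y : ℤ) (T : ℕ) (hT : 1 ≤ T) (he : |e| ≤ T) (hy : |y| ≤ T)
    (j : ℕ) (hj : j ≤ D) :
    |(spec e (derivative^[j] (bip c))).eval y| ≤ D ^ (D + 2) * H * T ^ (2 * D) := by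
  rw [spec_iterate_derivative]
  have hT' : (1 : ℤ) ≤ T := by exact_mod_cast hT
  have hD' : (1 : ℤ) ≤ D := by exact_mod_cast hD
  have hcoef : ∀ k, |(spec e (bip c)).coeff k| ≤ (D : ℤ) * (H * T ^ D) := by
    intro k
    rw [spec_bip_coeff]
    split_ifs with h
    · calc |∑ i : Fin D, c (i, ⟨k, h⟩) * e ^ (i : ℕ)|
          ≤ ∑ i : Fin D, |c (i, ⟨k, h⟩) * e ^ (i : ℕ)| := Finset.abs_sum_le_sum_abs _ _
        _ ≤ ∑ _i : Fin D, (H : ℤ) * T ^ D := by
            refine Finset.sum_le_sum (fun i _ => ?_)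
            rw [abs_mul, abs_pow]
            have h1 : |e| ^ (i : ℕ) ≤ (T : ℤ) ^ D :=
              (pow_le_pow_left₀ (abs_nonneg _) he _).trans (pow_le_pow_right₀ hT' i.2.le)
            exact mul_le_mul (hc _) h1 (by positivity) (by positivity)
        _ = (D : ℤ) * (H * T ^ D) := by
            rw [Finset.sum_const, Finset.card_univ, Fintype.card_fin, nsmul_eq_mul]
    · rw [abs_zero]; positivity
  have hdeg : (spec e (bip c)).natDegree < D :=
    lt_of_le_of_lt natDegree_map_le (bip_natDegree_lt hD c)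
  obtain ⟨h1, h2⟩ := iterate_derivative_coeff_le _ D hdeg _ hcoef j
  have h3 := eval_abs_le _ D h1 _ h2 y T hT hy
  refine h3.trans ?_
  have h4 : (D : ℤ) ^ j ≤ (D : ℤ) ^ D := pow_le_pow_right₀ hD' hj
  calc (D : ℤ) * ((D : ℤ) * (H * T ^ D) * D ^ j) * T ^ D
      ≤ (D : ℤ) * ((D : ℤ) * (H * T ^ D) * D ^ D) * T ^ D := by gcongr
    _ = D ^ (D + 2) * H * T ^ (2 * D) := by rw [two_mul, pow_add, pow_add]; ring

end Crest.Agent.R1.ST
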