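import Crest.Agent.R1.ST2

/-!
R1, structure theorem (ST), part 3: the p-adic collinearity step.
-/

namespace Crest.Agent.R1.ST

open Finset Polynomial

lemma spec_eval_eq (f : ℤ[X][X]) (x y : ℤ) : (spec x f).eval y = (f.eval (C y)).eval x := by
  unfold spec
  rw [map_evalRingHom_eval]

/-- first order Taylor expansion modulo `p ^ 2`. -/
lemma taylor (f : ℤ[X][X]) (p x y : ℤ) : ∃ A : ℤ, ∀ u v : ℤ,
    p ^ 2 ∣ (spec (x + p * u) f).eval (y + p * v) - (spec x f).eval y
      - p * (u * A + v * (spec x (derivative f)).eval y) := by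
  refine ⟨(derivative (f.eval (C y))).eval x, fun u v => ?_⟩
  obtain ⟨k1, hk1⟩ := binomExpansion (spec (x + p * u) f) y (p * v)
  obtain ⟨k2, hk2⟩ := binomExpansion (f.eval (C y)) x (p * u)
  have h3 : (spec (x + p * u) f).eval y = (f.eval (C y)).eval (x + p * u) := spec_eval_eq _ _ _
  have h4 : (spec x f).eval y = (f.eval (C y)).eval x := spec_eval_eq _ _ _
  have h5 : (derivative (spec (x + p * u) f)).eval y
      = ((derivative f).eval (C y)).eval (x + p * u) := by
    rw [← spec_derivative, spec_eval_eq]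
  have h6 : (spec x (derivative f)).eval y = ((derivative f).eval (C y)).eval x :=
    spec_eval_eq _ _ _
  obtain ⟨k3, hk3⟩ : (x + p * u) - x ∣ ((derivative f).eval (C y)).eval (x + p * u)
      - ((derivative f).eval (C y)).eval x := sub_dvd_eval_sub _ _ _
  rw [hk1, h3, hk2, h4, h5, h6]
  have h7 : ((derivative f).eval (C y)).eval (x + p * u)
      = ((derivative f).eval (C y)).eval x + (x + p * u - x) * k3 := by linarith
  rw [h7]
  exact ⟨u ^ 2 * k2 + u * v * k3 + v ^ 2 * k1, by ring⟩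

/-- three points of a curve in the same smooth residue class mod `p` have determinant divisible
by `p ^ 3`. -/
lemma det_dvd (f : ℤ[X][X]) (p : ℕ) (hp : p.Prime) (x y x1 y1 x2 y2 : ℤ)
    (h0 : (spec x f).eval y = 0) (h1 : (spec x1 f).eval y1 = 0) (h2 : (spec x2 f).eval y2 = 0)
    (hd : ¬ (p : ℤ) ∣ (spec x (derivative f)).eval y)
    (hx1 : (p : ℤ) ∣ x1 - x) (hy1 : (p : ℤ) ∣ y1 - y) (hx2 : (p : ℤ) ∣ x2 - x)
    (hy2 : (p : ℤ) ∣ y2 - y) :
    ((p : ℤ)) ^ 3 ∣ (x1 - x) * (y2 - y) - (x2 - x) * (y1 - y) := by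
  obtain ⟨u1, hu1⟩ := hx1
  obtain ⟨v1, hv1⟩ := hy1
  obtain ⟨u2, hu2⟩ := hx2
  obtain ⟨v2, hv2⟩ := hy2
  obtain ⟨A, hA⟩ := taylor f p x y
  set B := (spec x (derivative f)).eval y with hB
  have hpp : Prime (p : ℤ) := Nat.prime_iff_prime_int.mp hp
  have hp0 : (p : ℤ) ≠ 0 := hpp.ne_zero
  have key : ∀ x' y' u v : ℤ, (spec x' f).eval y' = 0 → x' - x = p * u → y' - y = p * v →
      (p : ℤ) ∣ u * A + v * B := by
    intro x' y' u v hz hxu hyv
    have e1 : x' = x + p * u := by linarith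
    have e2 : y' = y + p * v := by linarith
    have h := hA u v
    rw [← e1, ← e2, hz, h0, sub_zero, zero_sub, dvd_neg, pow_two] at h
    exact (mul_dvd_mul_iff_left hp0).mp h
  have k1 := key x1 y1 u1 v1 h1 hu1 hv1
  have k2 := key x2 y2 u2 v2 h2 hu2 hv2
  have k3 : (p : ℤ) ∣ (u1 * v2 - u2 * v1) * B := by
    have : (u1 * v2 - u2 * v1) * B = u1 * (u2 * A + v2 * B) - u2 * (u1 * A + v1 * B) := by ring
    rw [this]
    exact dvd_sub (Dvd.dvd.mul_left k2 _) (Dvd.dvd.mul_left k1 _)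
  have k4 : (p : ℤ) ∣ u1 * v2 - u2 * v1 := (hpp.dvd_or_dvd k3).resolve_right hd
  obtain ⟨w, hw⟩ := k4
  refine ⟨w, ?_⟩
  rw [hu1, hv1, hu2, hv2]
  calc (p : ℤ) * u1 * (p * v2) - p * u2 * (p * v1) = p ^ 2 * (u1 * v2 - u2 * v1) := by ring
    _ = (p : ℤ) ^ 3 * w := by rw [hw]; ring

/-- choice of a prime at which most of the `w e` are units. -/
lemma exists_prime (E : Finset ℤ) (w : ℤ → ℤ) (hw : ∀ e ∈ E, w e ≠ 0) (W : ℤ)
    (hW : ∀ e ∈ E, |w e| ≤ W) (PP : Finset ℕ) (hPP : ∀ p ∈ PP, p.Prime) (P1 : ℕ)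
    (hP1 : ∀ p ∈ PP, P1 ≤ p) (hP1' : 1 ≤ P1) (T : ℕ) (hT : W < (P1 : ℤ) ^ (T + 1))
    (hcard : 2 * T ≤ PP.card) (hne : PP.Nonempty) :
    ∃ p ∈ PP, E.card ≤ 2 * (E.filter (fun e => ¬ (p : ℤ) ∣ w e)).card := by
  classical
  have hT' : ∀ e ∈ E, (PP.filter (fun p : ℕ => (p : ℤ) ∣ w e)).card ≤ T := by
    intro e he
    by_contra hcon
    push Not at hcon
    apply hw e he
    refine eq_zero_of_primes (w e) (PP.filter (fun p : ℕ => (p : ℤ) ∣ w e))
      (fun g hg => hPP g (Finset.mem_filter.1 hg).1) (fun g hg => (Finset.mem_filter.1 hg).2) ?_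
    calc |w e| ≤ W := hW e he
      _ < (P1 : ℤ) ^ (T + 1) := hT
      _ ≤ (P1 : ℤ) ^ (PP.filter (fun p : ℕ => (p : ℤ) ∣ w e)).card := by
          refine pow_le_pow_right₀ (by exact_mod_cast hP1') hcon
      _ = ∏ _g ∈ PP.filter (fun p : ℕ => (p : ℤ) ∣ w e), (P1 : ℤ) := by rw [Finset.prod_const]
      _ ≤ _ := by
          refine Finset.prod_le_prod (fun _ _ => by positivity) (fun g hg => ?_)
          exact_mod_cast hP1 g (Finset.mem_filter.1 hg).1
  have hdc : ∑ p ∈ PP, (E.filter (fun e => (p : ℤ) ∣ w e)).card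
      = ∑ e ∈ E, (PP.filter (fun p : ℕ => (p : ℤ) ∣ w e)).card := by
    simp only [Finset.card_filter]
    exact Finset.sum_comm
  by_contra hcon
  push Not at hcon
  have h1 : ∀ p ∈ PP, E.card < 2 * (E.filter (fun e => (p : ℤ) ∣ w e)).card := by
    intro p hp
    have h2 := hcon p hp
    have h3 : (E.filter (fun e => (p : ℤ) ∣ w e)).card + (E.filter (fun e => ¬ (p : ℤ) ∣ w e)).card
        = E.card := Finset.card_filter_add_card_filter_not _
    omega
  have h2 : PP.card * E.card < 2 * (E.card * T) := by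
    calc PP.card * E.card = ∑ _p ∈ PP, E.card := by rw [Finset.sum_const, smul_eq_mul]
      _ < ∑ p ∈ PP, 2 * (E.filter (fun e => (p : ℤ) ∣ w e)).card :=
          Finset.sum_lt_sum_of_nonempty hne h1
      _ = 2 * ∑ e ∈ E, (PP.filter (fun p : ℕ => (p : ℤ) ∣ w e)).card := by
          rw [← Finset.mul_sum, hdc]
      _ ≤ 2 * ∑ _e ∈ E, T := by gcongr with e he; exact hT' e he
      _ = 2 * (E.card * T) := by rw [Finset.sum_const, smul_eq_mul]
  nlinarith [Nat.mul_le_mul_right E.card hcard]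

/-- reduction mod `p` and specialisation at `x`. -/
noncomputable def red (p : ℕ) (h : ℤ[X][X]) (x : ZMod p) : (ZMod p)[X] :=
  h.map (eval₂RingHom (Int.castRingHom (ZMod p)) x)

lemma red_eval (p : ℕ) (h : ℤ[X][X]) (e n : ℤ) :
    (red p h (e : ZMod p)).eval (n : ZMod p) = (((spec e h).eval n : ℤ) : ZMod p) := by
  have h1 : (Int.castRingHom (ZMod p)).comp (evalRingHom e)
      = eval₂RingHom (Int.castRingHom (ZMod p)) (e : ZMod p) := by
    ext <;> simp
  have h2 : (red p h (e : ZMod p)) = (spec e h).map (Int.castRingHom (ZMod p)) := by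
    unfold red spec
    rw [Polynomial.map_map, h1]
  rw [h2]
  simp

/-- number of smooth residue classes on the curve. -/
lemma card_classes (p : ℕ) (hp : p.Prime) (h : ℤ[X][X]) (D : ℕ) (hdeg : h.natDegree ≤ D)
    (E : Finset ℤ) (n : ℤ → ℤ) (h0 : ∀ e ∈ E, (spec e h).eval (n e) = 0)
    (h1 : ∀ e ∈ E, ¬ (p : ℤ) ∣ (spec e (derivative h)).eval (n e)) :
    (E.image (fun e : ℤ => ((e : ZMod p), ((n e : ℤ) : ZMod p)))).card ≤ p * D := by
  classical
  have : Fact p.Prime := ⟨hp⟩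
  have hsub : E.image (fun e : ℤ => ((e : ZMod p), ((n e : ℤ) : ZMod p))) ⊆
      (Finset.univ : Finset (ZMod p)).biUnion
        (fun x => ((red p h x).roots.toFinset).image (fun y => (x, y))) := by
    intro xy hxy
    obtain ⟨e, he, rfl⟩ := Finset.mem_image.1 hxy
    rw [Finset.mem_biUnion]
    refine ⟨(e : ZMod p), Finset.mem_univ _, Finset.mem_image.2 ⟨((n e : ℤ) : ZMod p), ?_, rfl⟩⟩
    rw [Multiset.mem_toFinset, mem_roots, IsRoot.def]
    · rw [red_eval, h0 e he, Int.cast_zero]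
    · intro hz
      have h2 : (red p (derivative h) (e : ZMod p)).eval ((n e : ℤ) : ZMod p) = 0 := by
        have : red p (derivative h) (e : ZMod p) = derivative (red p h (e : ZMod p)) := by
          unfold red; rw [Polynomial.derivative_map]
        rw [this, hz, derivative_zero, eval_zero]
      rw [red_eval, ZMod.intCast_zmod_eq_zero_iff_dvd] at h2
      exact h1 e he h2
  calc _ ≤ _ := Finset.card_le_card hsub
    _ ≤ ∑ x : ZMod p, (((red p h x).roots.toFinset).image (fun y => (x, y))).card :=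
        Finset.card_biUnion_le
    _ ≤ ∑ _x : ZMod p, D := by
        refine Finset.sum_le_sum (fun x _ => ?_)
        calc _ ≤ ((red p h x).roots.toFinset).card := Finset.card_image_le
          _ ≤ (red p h x).roots.card := Multiset.toFinset_card_le _
          _ ≤ (red p h x).natDegree := card_roots' _
          _ ≤ h.natDegree := natDegree_map_le
          _ ≤ D := hdeg
    _ = p * D := by rw [Finset.sum_const, Finset.card_univ, ZMod.card, smul_eq_mul]

/-- a popular class. -/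
lemma exists_class (p : ℕ) (hp : p.Prime) (h : ℤ[X][X]) (D : ℕ) (hdeg : h.natDegree ≤ D)
    (E : Finset ℤ) (n : ℤ → ℤ) (h0 : ∀ e ∈ E, (spec e h).eval (n e) = 0)
    (h1 : ∀ e ∈ E, ¬ (p : ℤ) ∣ (spec e (derivative h)).eval (n e)) (M : ℕ)
    (hM : p * D * M < E.card) :
    ∃ CC ⊆ E, M < CC.card ∧ ∀ e ∈ CC, ∀ e' ∈ CC, (p : ℤ) ∣ e - e' ∧ (p : ℤ) ∣ n e - n e' := by
  classical
  let φ : ℤ → ZMod p × ZMod p := fun e => ((e : ZMod p), ((n e : ℤ) : ZMod p))
  have hc := card_classes p hp h D hdeg E n h0 h1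
  obtain ⟨y, hy, hy2⟩ := Finset.exists_lt_card_fiber_of_mul_lt_card_of_maps_to
    (s := E) (t := E.image φ) (f := φ) (n := M) (fun e he => Finset.mem_image_of_mem _ he)
    (lt_of_le_of_lt (Nat.mul_le_mul_right M hc) hM)
  refine ⟨E.filter (fun e => φ e = y), Finset.filter_subset _ _, hy2, fun e he e' he' => ?_⟩
  have h2 : φ e = φ e' := by
    rw [(Finset.mem_filter.1 he).2, (Finset.mem_filter.1 he').2]
  have h3 := congrArg Prod.fst h2
  have h4 := congrArg Prod.snd h2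
  simp only [φ] at h3 h4
  constructor
  · rw [← ZMod.intCast_zmod_eq_zero_iff_dvd]; push_cast; rw [h3, sub_self]
  · rw [← ZMod.intCast_zmod_eq_zero_iff_dvd]; push_cast; rw [h4, sub_self]

end Crest.Agent.R1.ST
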