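import Crest.Agent.R1.ST3

/-!
R1, structure theorem (ST), part 4: extraction of the line and the larger sieve.
-/

namespace Crest.Agent.R1.ST

open Finset Polynomial

/-- `m` distinct integers: one of them is large. -/
lemma exists_large (K : Finset ℤ) (hK : 0 < K.card) : ∃ k ∈ K, (K.card : ℤ) - 1 ≤ 2 * |k| := by
  by_contra hcon
  push Not at hcon
  set b : ℤ := ((K.card : ℤ) - 2) / 2 with hb
  have hsub : K ⊆ Finset.Icc (-b) b := by
    intro k hk
    have h1 := hcon k hk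
    have h2 : |k| ≤ b := by omega
    rw [abs_le] at h2
    exact Finset.mem_Icc.2 h2
  have h3 := Finset.card_le_card hsub
  rw [Int.card_Icc] at h3
  obtain ⟨k, hk⟩ := Finset.card_pos.1 hK
  have h1 := hcon k hk
  have h2 := abs_nonneg k
  omega

/-- points of a class which are collinear lie on a line with small slope. -/
lemma line (p : ℕ) (hp : 0 < p) (CC : Finset ℤ) (n : ℤ → ℤ) (M : ℕ) (hM : M < CC.card)
    (hM1 : 1 ≤ M)
    (hcl : ∀ e ∈ CC, ∀ e' ∈ CC, (p : ℤ) ∣ e - e' ∧ (p : ℤ) ∣ n e - n e')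
    (hdet : ∀ e0 ∈ CC, ∀ e1 ∈ CC, ∀ e2 ∈ CC,
      (e1 - e0) * (n e2 - n e0) = (e2 - e0) * (n e1 - n e0))
    (R1 R2 : ℤ) (hR1 : ∀ e ∈ CC, ∀ e' ∈ CC, |e - e'| ≤ R1)
    (hR2 : ∀ e ∈ CC, ∀ e' ∈ CC, |n e - n e'| ≤ R2) :
    ∃ V S U : ℤ, 1 ≤ V ∧ IsCoprime V S ∧ (∀ e ∈ CC, V * n e = U + S * e) ∧
      V * p * M ≤ 2 * R1 ∧ |S| * p * M ≤ 2 * R2 := by
  classical
  obtain ⟨e0, he0, e1, he1, hne⟩ := Finset.one_lt_card.1 (lt_of_le_of_lt hM1 hM)
  have hp' : (0 : ℤ) < p := by exact_mod_cast hp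
  -- the direction vector
  set a := e1 - e0 with ha
  set b := n e1 - n e0 with hb
  have ha0 : a ≠ 0 := by rw [ha]; exact sub_ne_zero.mpr (Ne.symm hne)
  set g : ℤ := ((Int.gcd a b : ℕ) : ℤ) with hg
  have hg0 : 0 < g := by
    rw [hg]; exact_mod_cast Int.gcd_pos_of_ne_zero_left b ha0
  obtain ⟨a', ha'⟩ : g ∣ a := Int.gcd_dvd_left a b
  obtain ⟨b', hb'⟩ : g ∣ b := Int.gcd_dvd_right a b
  have hcop : IsCoprime a' b' := by
    refine ⟨a.gcdA b, a.gcdB b, ?_⟩
    have h1 := Int.gcd_eq_gcd_ab a b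
    have h2 : g * (a.gcdA b * a' + a.gcdB b * b') = g * 1 := by
      calc g * (a.gcdA b * a' + a.gcdB b * b') = (g * a') * a.gcdA b + (g * b') * a.gcdB b := by ring
        _ = a * a.gcdA b + b * a.gcdB b := by rw [← ha', ← hb']
        _ = g * 1 := by rw [mul_one, hg, h1]
    exact mul_left_cancel₀ hg0.ne' h2
  have ha'0 : a' ≠ 0 := by rintro rfl; rw [mul_zero] at ha'; exact ha0 ha'
  -- each difference is a multiple of `p * (a', b')`
  have hk : ∀ e ∈ CC, ∃ k : ℤ, e - e0 = a' * p * k ∧ n e - n e0 = b' * p * k := by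
    intro e he
    have h1 : a' * (n e - n e0) = (e - e0) * b' := by
      have h2 := hdet e0 he0 e1 he1 e he
      rw [← ha, ← hb, ha', hb'] at h2
      have h3 : g * (a' * (n e - n e0)) = g * ((e - e0) * b') := by linarith [h2]
      exact mul_left_cancel₀ hg0.ne' h3
    obtain ⟨t, ht⟩ : a' ∣ e - e0 := by
      have : a' ∣ (e - e0) * b' := ⟨n e - n e0, h1.symm⟩
      exact hcop.dvd_of_dvd_mul_right this
    have h4 : n e - n e0 = b' * t := by
      have : a' * (n e - n e0) = a' * (b' * t) := by rw [h1, ht]; ring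
      exact mul_left_cancel₀ ha'0 this
    obtain ⟨h5, h6⟩ := hcl e he e0 he0
    have h7 : (p : ℤ) ∣ t := by
      obtain ⟨u, v, huv⟩ := hcop
      have : t = u * (a' * t) + v * (b' * t) := by
        calc t = (u * a' + v * b') * t := by rw [huv, one_mul]
          _ = _ := by ring
      rw [this, ← ht, ← h4]
      exact dvd_add (Dvd.dvd.mul_left h5 _) (Dvd.dvd.mul_left h6 _)
    obtain ⟨k, hk⟩ := h7
    exact ⟨k, by rw [ht, hk]; ring, by rw [h4, hk]; ring⟩
  choose! k hk using hk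
  have hinj : Set.InjOn k (CC : Set ℤ) := by
    intro x hx y hy hxy
    have h1 := (hk x hx).1
    have h2 := (hk y hy).1
    rw [hxy] at h1
    linarith
  have hcard : (CC.image k).card = CC.card := Finset.card_image_of_injOn hinj
  obtain ⟨k0, hk0, hk0'⟩ := exists_large (CC.image k) (by rw [hcard]; omega)
  obtain ⟨e2, he2, rfl⟩ := Finset.mem_image.1 hk0
  rw [hcard] at hk0'
  have hMk : (M : ℤ) ≤ 2 * |k e2| := by
    have : (M : ℤ) + 1 ≤ CC.card := by exact_mod_cast hM
    linarith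
  have hb1 : |a'| * p * M ≤ 2 * R1 := by
    have h1 := hR1 e2 he2 e0 he0
    rw [(hk e2 he2).1, abs_mul, abs_mul, Nat.abs_cast] at h1
    calc |a'| * p * M ≤ |a'| * p * (2 * |k e2|) := by gcongr
      _ = 2 * (|a'| * p * |k e2|) := by ring
      _ ≤ 2 * R1 := by linarith
  have hb2 : |b'| * p * M ≤ 2 * R2 := by
    have h1 := hR2 e2 he2 e0 he0
    rw [(hk e2 he2).2, abs_mul, abs_mul, Nat.abs_cast] at h1
    calc |b'| * p * M ≤ |b'| * p * (2 * |k e2|) := by gcongr
      _ = 2 * (|b'| * p * |k e2|) := by ring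
      _ ≤ 2 * R2 := by linarith
  have hline : ∀ e ∈ CC, a' * n e = (a' * n e0 - b' * e0) + b' * e := by
    intro e he
    obtain ⟨h1, h2⟩ := hk e he
    have h3 : n e = n e0 + b' * p * k e := by linarith
    have h4 : e = e0 + a' * p * k e := by linarith
    calc a' * n e = a' * n e0 + b' * (a' * p * k e) := by rw [h3]; ring
      _ = a' * n e0 + b' * (e - e0) := by rw [h1]
      _ = _ := by ring
  rcases lt_or_gt_of_ne ha'0 with hneg | hpos
  · refine ⟨-a', -b', -(a' * n e0 - b' * e0), by omega, hcop.neg_neg, fun e he => ?_, ?_, ?_⟩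
    · have := hline e he; linarith
    · rw [abs_of_neg hneg] at hb1; exact hb1
    · rw [abs_neg]; exact hb2
  · refine ⟨a', b', (a' * n e0 - b' * e0), by omega, hcop, fun e he => ?_, ?_, ?_⟩
    · have := hline e he; linarith
    · rw [abs_of_pos hpos] at hb1; exact hb1
    · exact hb2

/-- elements of a set in few classes: many congruent pairs. -/
lemma pairs_ge (C : Finset ℤ) (g B : ℕ) (cl : Finset (ZMod g)) (hcl : cl.card ≤ B)
    (hC : ∀ e ∈ C, (e : ZMod g) ∈ cl) :
    C.card ^ 2 ≤ B * ((C ×ˢ C).filter (fun q => (g : ℤ) ∣ q.1 - q.2)).card := by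
  classical
  have h1 : C.card = ∑ y ∈ cl, (C.filter (fun e : ℤ => (e : ZMod g) = y)).card :=
    Finset.card_eq_sum_card_fiberwise (fun e he => hC e he)
  have h2 : ∑ y ∈ cl, (C.filter (fun e : ℤ => (e : ZMod g) = y)).card ^ 2
      ≤ ((C ×ˢ C).filter (fun q => (g : ℤ) ∣ q.1 - q.2)).card := by
    have : ∑ y ∈ cl, (C.filter (fun e : ℤ => (e : ZMod g) = y)).card ^ 2
        = (cl.sigma (fun y => (C.filter (fun e : ℤ => (e : ZMod g) = y)) ×ˢ
          (C.filter (fun e : ℤ => (e : ZMod g) = y)))).card := by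
      rw [Finset.card_sigma]
      refine Finset.sum_congr rfl (fun y _ => ?_)
      rw [Finset.card_product, pow_two]
    rw [this]
    refine Finset.card_le_card_of_injOn (fun q => q.2) ?_ ?_
    · intro q hq
      have hq' := Finset.mem_sigma.1 (Finset.mem_coe.1 hq)
      obtain ⟨h3, h4⟩ := Finset.mem_product.1 hq'.2
      rw [Finset.mem_filter] at h3 h4
      refine Finset.mem_coe.2 (Finset.mem_filter.2 ⟨Finset.mem_product.2 ⟨h3.1, h4.1⟩, ?_⟩)
      rw [← ZMod.intCast_zmod_eq_zero_iff_dvd]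
      push_cast
      rw [h3.2, h4.2, sub_self]
    · rintro ⟨y1, q1⟩ hq1 ⟨y2, q2⟩ hq2 h
      have hq1' := (Finset.mem_product.1 (Finset.mem_sigma.1 (Finset.mem_coe.1 hq1)).2).1
      have hq2' := (Finset.mem_product.1 (Finset.mem_sigma.1 (Finset.mem_coe.1 hq2)).2).1
      rw [Finset.mem_filter] at hq1' hq2'
      simp only at h hq1' hq2'
      subst h
      have : y1 = y2 := by rw [← hq1'.2, ← hq2'.2]
      subst this
      rfl
  have h3 : C.card ^ 2 ≤ cl.card * ∑ y ∈ cl, (C.filter (fun e : ℤ => (e : ZMod g) = y)).card ^ 2 := by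
    conv_lhs => rw [h1]
    exact sq_sum_le_card_mul_sum_sq
  calc C.card ^ 2 ≤ cl.card * ∑ y ∈ cl, (C.filter (fun e : ℤ => (e : ZMod g) = y)).card ^ 2 := h3
    _ ≤ B * _ := Nat.mul_le_mul hcl h2

/-- few primes `g ≥ G` divide a nonzero integer. -/
lemma card_dvd_le (GG : Finset ℕ) (hGG : ∀ g ∈ GG, g.Prime) (G : ℕ) (hG : ∀ g ∈ GG, G ≤ g)
    (hG1 : 1 ≤ G) (N : ℤ) (hN : N ≠ 0) (W : ℕ) (hW : |N| < (G : ℤ) ^ (W + 1)) :
    (GG.filter (fun g : ℕ => (g : ℤ) ∣ N)).card ≤ W := by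
  by_contra hcon
  push Not at hcon
  apply hN
  refine eq_zero_of_primes N (GG.filter (fun g : ℕ => (g : ℤ) ∣ N))
    (fun g hg => hGG g (Finset.mem_filter.1 hg).1) (fun g hg => (Finset.mem_filter.1 hg).2) ?_
  calc |N| < (G : ℤ) ^ (W + 1) := hW
    _ ≤ (G : ℤ) ^ (GG.filter (fun g : ℕ => (g : ℤ) ∣ N)).card :=
        pow_le_pow_right₀ (by exact_mod_cast hG1) hcon
    _ = ∏ _g ∈ GG.filter (fun g : ℕ => (g : ℤ) ∣ N), (G : ℤ) := by rw [Finset.prod_const]
    _ ≤ _ := by
        refine Finset.prod_le_prod (fun _ _ => by positivity) (fun g hg => ?_)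
        exact_mod_cast hG g (Finset.mem_filter.1 hg).1

/-- the larger sieve in the form needed here. `CC` = points on a line, `Bad e` = the set of bad
primes for `e`.  If each `e` has at least `K` bad primes outside the good set, and for each
`g` the bad `e` lie in at most `|cl g|` classes, then the number of elements is small. -/
lemma larger_sieve (CC : Finset ℤ) (GG : Finset ℕ) (hGG : ∀ g ∈ GG, g.Prime) (G BB W K : ℕ)
    (hG : ∀ g ∈ GG, G ≤ g) (hG1 : 1 ≤ G) (R1 : ℤ)
    (hR1 : ∀ e ∈ CC, ∀ e' ∈ CC, |e - e'| ≤ R1) (hW : R1 < (G : ℤ) ^ (W + 1))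
    (bad : ℤ → ℕ → Prop) [∀ e g, Decidable (bad e g)]
    (hbad : ∀ e ∈ CC, K ≤ (GG.filter (fun g => bad e g)).card)
    (cl : ∀ g : ℕ, Finset (ZMod g)) (hcl : ∑ g ∈ GG, (cl g).card ≤ BB)
    (hin : ∀ e ∈ CC, ∀ g ∈ GG, bad e g → (e : ZMod g) ∈ cl g) :
    K ^ 2 * CC.card ≤ BB * (GG.card + W * CC.card) := by
  classical
  have h1 : K * CC.card ≤ ∑ g ∈ GG, (CC.filter (fun e => bad e g)).card := by
    calc K * CC.card = ∑ _e ∈ CC, K := by rw [Finset.sum_const, smul_eq_mul, mul_comm]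
      _ ≤ ∑ e ∈ CC, (GG.filter (fun g => bad e g)).card := Finset.sum_le_sum hbad
      _ = ∑ g ∈ GG, (CC.filter (fun e => bad e g)).card := by
          simp only [Finset.card_filter]
          exact Finset.sum_comm
  have h3 : ∀ g ∈ GG, (CC.filter (fun e => bad e g)).card ^ 2 ≤
      (cl g).card * ((CC ×ˢ CC).filter (fun q => (g : ℤ) ∣ q.1 - q.2)).card := by
    intro g hg
    refine (pairs_ge _ g (cl g).card (cl g) le_rfl (fun e he => ?_)).trans ?_
    · exact hin e (Finset.mem_filter.1 he).1 g hg (Finset.mem_filter.1 he).2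
    · refine Nat.mul_le_mul_left _ (Finset.card_le_card ?_)
      refine Finset.filter_subset_filter _ ?_
      exact Finset.product_subset_product (Finset.filter_subset _ _) (Finset.filter_subset _ _)
  have h2 : (K * CC.card) ^ 2 ≤ (∑ g ∈ GG, (cl g).card) *
      ∑ g ∈ GG, ((CC ×ˢ CC).filter (fun q => (g : ℤ) ∣ q.1 - q.2)).card :=
    (Nat.pow_le_pow_left h1 2).trans
      (Finset.sum_sq_le_sum_mul_sum_of_sq_le_mul _ (fun _ _ => Nat.zero_le _)
        (fun _ _ => Nat.zero_le _) h3)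
  have h4 : ∑ g ∈ GG, ((CC ×ˢ CC).filter (fun q => (g : ℤ) ∣ q.1 - q.2)).card
      ≤ CC.card * GG.card + CC.card ^ 2 * W := by
    calc ∑ g ∈ GG, ((CC ×ˢ CC).filter (fun q : ℤ × ℤ => (g : ℤ) ∣ q.1 - q.2)).card
        = ∑ q ∈ CC ×ˢ CC, (GG.filter (fun g : ℕ => (g : ℤ) ∣ q.1 - q.2)).card := by
          simp only [Finset.card_filter]
          exact Finset.sum_comm
      _ ≤ ∑ q ∈ CC ×ˢ CC, (W + if q.1 = q.2 then GG.card else 0) := by
          refine Finset.sum_le_sum (fun q hq => ?_)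
          obtain ⟨hq1, hq2⟩ := Finset.mem_product.1 hq
          split_ifs with h
          · exact (Finset.card_filter_le _ _).trans (by omega)
          · rw [add_zero]
            exact card_dvd_le GG hGG G hG hG1 _ (sub_ne_zero.mpr h) W
              (lt_of_le_of_lt (hR1 _ hq1 _ hq2) hW)
      _ = CC.card * GG.card + CC.card ^ 2 * W := by
          rw [Finset.sum_add_distrib, Finset.sum_const, Finset.card_product, smul_eq_mul,
            ← Finset.sum_filter, Finset.sum_const, smul_eq_mul]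
          have : ((CC ×ˢ CC).filter (fun q => q.1 = q.2)).card = CC.card := by
            have h5 : (CC ×ˢ CC).filter (fun q => q.1 = q.2) = CC.diag := by
              ext q
              simp only [Finset.mem_filter, Finset.mem_product, Finset.mem_diag]
              constructor
              · rintro ⟨⟨h, _⟩, h'⟩; exact ⟨h, h'⟩
              · rintro ⟨h, h'⟩; exact ⟨⟨h, h' ▸ h⟩, h'⟩
            rw [h5, Finset.diag_card]
          rw [this]; ring
  have h5 : (K * CC.card) ^ 2 ≤ BB * (CC.card * GG.card + CC.card ^ 2 * W) :=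
    h2.trans (Nat.mul_le_mul hcl h4)
  rcases Nat.eq_zero_or_pos CC.card with h0 | h0
  · rw [h0]; simp
  · have h6 : CC.card * (K ^ 2 * CC.card) ≤ CC.card * (BB * (GG.card + W * CC.card)) := by
      calc CC.card * (K ^ 2 * CC.card) = (K * CC.card) ^ 2 := by ring
        _ ≤ _ := h5
        _ = _ := by ring
    exact Nat.le_of_mul_le_mul_left h6 h0

end Crest.Agent.R1.ST
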