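import Crest.Agent.R1.ST4

/-!
R1, structure theorem (ST), part 5: assembly.
-/

namespace Crest.Agent.R1.ST

open Finset Polynomial

lemma numeric (K K' q B W M c : ℕ) (h1 : K ≤ 2 * K') (h2 : K' ^ 2 * c ≤ B * (q + W * c))
    (h3 : M < 2 * c) (h4 : 8 * q * B + 4 * B * W * M < K ^ 2 * M) : False := by
  have e1 : K ^ 2 ≤ 4 * K' ^ 2 := by
    calc K ^ 2 ≤ (2 * K') ^ 2 := Nat.pow_le_pow_left h1 2
      _ = 4 * K' ^ 2 := by ring
  have e2 : K ^ 2 * M * c ≤ 4 * q * B * M + 4 * B * W * M * c := by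
    calc K ^ 2 * M * c = K ^ 2 * (M * c) := by ring
      _ ≤ 4 * K' ^ 2 * (M * c) := Nat.mul_le_mul_right _ e1
      _ = 4 * M * (K' ^ 2 * c) := by ring
      _ ≤ 4 * M * (B * (q + W * c)) := Nat.mul_le_mul_left _ h2
      _ = 4 * q * B * M + 4 * B * W * M * c := by ring
  have e3 : (8 * q * B + 4 * B * W * M) * c < K ^ 2 * M * c :=
    Nat.mul_lt_mul_of_pos_right h4 (by omega)
  have e4 : 4 * q * B * M ≤ 8 * q * B * c := by
    calc 4 * q * B * M ≤ 4 * q * B * (2 * c) := Nat.mul_le_mul_left _ h3.le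
      _ = 8 * q * B * c := by ring
  have e5 : (8 * q * B + 4 * B * W * M) * c
      = 8 * q * B * c + 4 * B * W * M * c := by ring
  omega

/-- **Structure theorem**, core form (all conditions are explicit numeric hypotheses). -/
theorem core (Y : ℕ) (hY : 1 ≤ Y) (E : Finset ℤ) (hE : ∀ e ∈ E, (Y : ℤ) ≤ e ∧ e ≤ 2 * Y)
    (n : ℤ → ℤ) (hn : ∀ e ∈ E, 0 ≤ n e ∧ n e ≤ 2 * Y)
    (GG : Finset ℕ) (hGG : ∀ g ∈ GG, g.Prime) (G1 G2 : ℕ) (hG1 : 1 ≤ G1)
    (hGl : ∀ g ∈ GG, G1 ≤ g) (hGu : ∀ g ∈ GG, g ≤ G2)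
    (a : ℕ → ℤ) (R : ∀ g : ℕ, Finset (ZMod g)) (B : ℕ) (hR : ∑ g ∈ GG, (R g).card ≤ B)
    (K : ℕ) (bad : ℤ → ℕ → Prop) [∀ e g, Decidable (bad e g)]
    (hbadR : ∀ e ∈ E, ∀ g ∈ GG, bad e g → ∃ r ∈ R g, ((a g - n e : ℤ) : ZMod g) = r * e)
    (hbad : ∀ e ∈ E, K ≤ (GG.filter (fun g => bad e g)).card)
    (D H : ℕ) (hD : 0 < D)
    (N1 : G2 ^ (2 * D * B) < (H + 1) ^ (D * D))
    (N2 : D * D * H * (2 * Y) ^ (2 * D) < G1 ^ K)
    (PP : Finset ℕ) (hPP : ∀ p ∈ PP, p.Prime) (hne : PP.Nonempty) (P1 P2 : ℕ)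
    (hP1 : ∀ p ∈ PP, P1 ≤ p) (hP2 : ∀ p ∈ PP, p ≤ P2) (hPY : 4 * Y ^ 2 < P1 ^ 3)
    (T : ℕ) (hT : D ^ (D + 2) * H * (2 * Y) ^ (2 * D) < P1 ^ (T + 1)) (hT2 : 2 * T ≤ PP.card)
    (M : ℕ) (hM : 1 ≤ M) (N4 : D + 2 * D * (P2 * D * M) < E.card)
    (W : ℕ) (hW : Y < G1 ^ (W + 1))
    (N5 : 8 * GG.card * B + 4 * B * W * M < K ^ 2 * M) :
    ∃ V S U : ℤ, 1 ≤ V ∧ IsCoprime V S ∧ V * P1 * M ≤ 2 * Y ∧ |S| * P1 * M ≤ 4 * Y ∧
      ∃ E' ⊆ E, M ≤ 2 * E'.card ∧ ∀ e ∈ E', V * n e = U + S * e ∧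
        (GG.filter (fun g => bad e g)).card ≤
          2 * (GG.filter (fun g => bad e g ∧ (g : ℤ) ∣ V * a g - U)).card := by
  classical
  -- the auxiliary polynomial
  have hG2 : 1 ≤ G2 := by
    by_contra h
    have h0 : GG = ∅ := by
      apply Finset.eq_empty_of_forall_notMem
      intro g hg
      have := hGl g hg; have := hGu g hg; omega
    rw [h0] at N5
    have hE0 : E.Nonempty := by
      rw [← Finset.card_pos]; omega
    obtain ⟨e, he⟩ := hE0
    have := hbad e he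
    rw [h0] at this
    simp only [Finset.filter_empty, Finset.card_empty] at this
    have hK0 : K = 0 := by omega
    rw [hK0] at N5
    simp at N5
  obtain ⟨c, hc0, hcH, hcv⟩ := exists_poly GG hGG G2 B D H hGu hG2 a R hR hD N1
  -- it vanishes at all points
  have hval : ∀ e ∈ E, val c e (n e) = 0 := by
    intro e he
    refine eq_zero_of_primes _ (GG.filter (fun g => bad e g))
      (fun g hg => hGG g (Finset.mem_filter.1 hg).1) (fun g hg => ?_) ?_
    · obtain ⟨hg1, hg2⟩ := Finset.mem_filter.1 hg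
      obtain ⟨r, hr, hreq⟩ := hbadR e he g hg1 hg2
      have := hcv g hg1 r hr e (n e) hreq
      rwa [ZMod.intCast_zmod_eq_zero_iff_dvd] at this
    · have h1 : |val c e (n e)| ≤ D * D * H * ((2 * Y : ℕ) : ℤ) ^ (2 * D) := by
        refine abs_val_le c H hcH e (n e) (2 * Y) (by omega) ?_ ?_
        · obtain ⟨h2, h3⟩ := hE e he
          rw [abs_of_nonneg (by omega)]; push_cast; exact h3
        · obtain ⟨h2, h3⟩ := hn e he
          rw [abs_of_nonneg h2]; push_cast; exact h3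
      calc |val c e (n e)| ≤ D * D * H * ((2 * Y : ℕ) : ℤ) ^ (2 * D) := h1
        _ < (G1 : ℤ) ^ K := by exact_mod_cast N2
        _ ≤ (G1 : ℤ) ^ (GG.filter (fun g => bad e g)).card :=
            pow_le_pow_right₀ (by exact_mod_cast hG1) (hbad e he)
        _ = ∏ _g ∈ GG.filter (fun g => bad e g), (G1 : ℤ) := by rw [Finset.prod_const]
        _ ≤ _ := by
            refine Finset.prod_le_prod (fun _ _ => by positivity) (fun g hg => ?_)
            exact_mod_cast hGl g (Finset.mem_filter.1 hg).1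
  -- stratification
  obtain ⟨j, hj, hjc⟩ := stratify hD c hc0 E n hval
  set h := derivative^[j] (bip c) with hh
  set Ej := E.filter (fun e => (spec e h).eval (n e) = 0 ∧
      (spec e (derivative h)).eval (n e) ≠ 0) with hEj
  have hEjsub : Ej ⊆ E := Finset.filter_subset _ _
  -- the prime
  obtain ⟨p, hp, hpc⟩ := exists_prime Ej (fun e => (spec e (derivative h)).eval (n e))
    (fun e he => (Finset.mem_filter.1 he).2.2) (D ^ (D + 2) * H * ((2 * Y : ℕ) : ℤ) ^ (2 * D))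
    (fun e he => by
      have he' := hEjsub he
      have h1 : derivative h = derivative^[j + 1] (bip c) := by
        rw [hh, ← Function.iterate_succ_apply' (f := derivative)]
      simp only [h1]
      refine abs_spec_derivative_le hD c H hcH e (n e) (2 * Y) (by omega) ?_ ?_ (j + 1) hj
      · obtain ⟨h2, h3⟩ := hE e he'
        rw [abs_of_nonneg (by omega)]; push_cast; exact h3
      · obtain ⟨h2, h3⟩ := hn e he'
        rw [abs_of_nonneg h2]; push_cast; exact h3)
    PP hPP P1 hP1 (by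
      rcases Nat.eq_zero_or_pos P1 with h0 | h0
      · rw [h0] at hPY; simp at hPY
      · exact h0) T (by exact_mod_cast hT) hT2 hne
  set Ep := Ej.filter (fun e => ¬ (p : ℤ) ∣ (spec e (derivative h)).eval (n e)) with hEp
  have hEpsub : Ep ⊆ Ej := Finset.filter_subset _ _
  have hcount : p * D * M < Ep.card := by
    by_contra hcon
    push Not at hcon
    have h1 : Ep.card ≤ P2 * D * M := hcon.trans (by
      have := hP2 p hp
      gcongr)
    have h2 : E.card ≤ D + D * Ej.card := hjc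
    have h3 : D * Ej.card ≤ D * (2 * (P2 * D * M)) := by
      have h3' : Ej.card ≤ 2 * Ep.card := hpc
      exact Nat.mul_le_mul_left _ (by omega)
    have h4 : D * (2 * (P2 * D * M)) = 2 * D * (P2 * D * M) := by ring
    omega
  have hpp := hPP p hp
  have hdegh : h.natDegree ≤ D := by
    rw [hh]
    exact (natDegree_iterate_derivative _ _).trans
      ((Nat.sub_le _ _).trans (bip_natDegree_lt hD c).le)
  obtain ⟨CC, hCC, hCCM, hcl⟩ := exists_class p hpp h D hdegh Ep n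
    (fun e he => (Finset.mem_filter.1 (hEpsub he)).2.1)
    (fun e he => (Finset.mem_filter.1 he).2) M hcount
  have hCE : ∀ e ∈ CC, e ∈ E := fun e he => hEjsub (hEpsub (hCC he))
  have hR1 : ∀ e ∈ CC, ∀ e' ∈ CC, |e - e'| ≤ (Y : ℤ) := by
    intro e he e' he'
    obtain ⟨h1, h2⟩ := hE e (hCE e he)
    obtain ⟨h3, h4⟩ := hE e' (hCE e' he')
    rw [abs_le]; constructor <;> linarith
  have hR2 : ∀ e ∈ CC, ∀ e' ∈ CC, |n e - n e'| ≤ (2 * Y : ℤ) := by
    intro e he e' he'
    obtain ⟨h1, h2⟩ := hn e (hCE e he)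
    obtain ⟨h3, h4⟩ := hn e' (hCE e' he')
    rw [abs_le]; constructor <;> linarith
  -- collinearity
  have hdet : ∀ e0 ∈ CC, ∀ e1 ∈ CC, ∀ e2 ∈ CC,
      (e1 - e0) * (n e2 - n e0) = (e2 - e0) * (n e1 - n e0) := by
    intro e0 he0 e1 he1 e2 he2
    have hd := det_dvd h p hpp e0 (n e0) e1 (n e1) e2 (n e2)
      (Finset.mem_filter.1 (hEpsub (hCC he0))).2.1
      (Finset.mem_filter.1 (hEpsub (hCC he1))).2.1
      (Finset.mem_filter.1 (hEpsub (hCC he2))).2.1
      (Finset.mem_filter.1 (hCC he0)).2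
      (hcl e1 he1 e0 he0).1 (hcl e1 he1 e0 he0).2 (hcl e2 he2 e0 he0).1 (hcl e2 he2 e0 he0).2
    have habs : |(e1 - e0) * (n e2 - n e0) - (e2 - e0) * (n e1 - n e0)| ≤ 4 * (Y : ℤ) ^ 2 := by
      have h1 : |(e1 - e0) * (n e2 - n e0)| ≤ (Y : ℤ) * (2 * Y) := by
        rw [abs_mul]
        exact mul_le_mul (hR1 _ he1 _ he0) (hR2 _ he2 _ he0) (abs_nonneg _) (by positivity)
      have h2 : |(e2 - e0) * (n e1 - n e0)| ≤ (Y : ℤ) * (2 * Y) := by
        rw [abs_mul]
        exact mul_le_mul (hR1 _ he2 _ he0) (hR2 _ he1 _ he0) (abs_nonneg _) (by positivity)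
      calc |(e1 - e0) * (n e2 - n e0) - (e2 - e0) * (n e1 - n e0)|
          ≤ |(e1 - e0) * (n e2 - n e0)| + |(e2 - e0) * (n e1 - n e0)| := abs_sub _ _
        _ ≤ 4 * (Y : ℤ) ^ 2 := by nlinarith
    have hlt : |(e1 - e0) * (n e2 - n e0) - (e2 - e0) * (n e1 - n e0)| < (p : ℤ) ^ 3 := by
      calc _ ≤ 4 * (Y : ℤ) ^ 2 := habs
        _ < (P1 : ℤ) ^ 3 := by exact_mod_cast hPY
        _ ≤ (p : ℤ) ^ 3 := by
            have := hP1 p hp
            gcongr
    have := Int.eq_zero_of_abs_lt_dvd hd hlt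
    linarith
  obtain ⟨V, S, U, hV, hcop, hline, hVb, hSb⟩ := line p hpp.pos CC n M hCCM hM hcl hdet
    (Y : ℤ) (2 * Y : ℤ) hR1 hR2
  have hP1p : (P1 : ℤ) ≤ p := by exact_mod_cast hP1 p hp
  refine ⟨V, S, U, hV, hcop, ?_, ?_, ?_⟩
  · refine le_trans ?_ hVb
    have : (0 : ℤ) ≤ V := by omega
    gcongr
  · refine le_trans ?_ (hSb.trans (by linarith))
    gcongr
  -- the larger sieve
  set bad0 : ℤ → ℕ → Prop := fun e g => bad e g ∧ ¬ (g : ℤ) ∣ V * a g - U with hbad0
  set C1 := CC.filter (fun e => ¬ ((GG.filter (fun g => bad e g)).card ≤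
          2 * (GG.filter (fun g => bad e g ∧ (g : ℤ) ∣ V * a g - U)).card)) with hC1
  set C2 := CC.filter (fun e => ((GG.filter (fun g => bad e g)).card ≤
          2 * (GG.filter (fun g => bad e g ∧ (g : ℤ) ∣ V * a g - U)).card)) with hC2
  have hC12 : C2.card + C1.card = CC.card := Finset.card_filter_add_card_filter_not _
  refine ⟨C2, fun e he => hCE e (Finset.mem_filter.1 he).1, ?_, fun e he =>
    ⟨hline e (Finset.mem_filter.1 he).1, (Finset.mem_filter.1 he).2⟩⟩
  by_contra hcon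
  push Not at hcon
  have hC1M : M < 2 * C1.card := by omega
  set K' := (K + 1) / 2 with hK'
  have hK2 : K ≤ 2 * K' := by omega
  have hls := larger_sieve C1 GG hGG G1 B W K' hGl hG1 (Y : ℤ)
    (fun e he e' he' => hR1 e (Finset.mem_filter.1 he).1 e' (Finset.mem_filter.1 he').1)
    (by exact_mod_cast hW) bad0
    (by
      intro e he
      have h1 := (Finset.mem_filter.1 he).2
      have h2 : (GG.filter (fun g => bad e g ∧ (g : ℤ) ∣ V * a g - U)).card
          + (GG.filter (fun g => bad0 e g)).card = (GG.filter (fun g => bad e g)).card := by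
        have h3 := Finset.card_filter_add_card_filter_not (s := GG.filter (fun g => bad e g))
          (fun g : ℕ => (g : ℤ) ∣ V * a g - U)
        rw [Finset.filter_filter, Finset.filter_filter] at h3
        exact h3
      have h4 := hbad e (hCE e (Finset.mem_filter.1 he).1)
      omega)
    (fun g => (R g).image (fun r => ((V * a g - U : ℤ) : ZMod g) * (((V : ℤ) : ZMod g) * r + ((S : ℤ) : ZMod g))⁻¹))
    ((Finset.sum_le_sum (fun g _ => Finset.card_image_le)).trans hR)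
    (by
      intro e he g hg hb
      obtain ⟨hb1, hb2⟩ := hb
      have heC := (Finset.mem_filter.1 he).1
      obtain ⟨r, hr, hreq⟩ := hbadR e (hCE e heC) g hg hb1
      rw [Finset.mem_image]
      refine ⟨r, hr, ?_⟩
      have : Fact g.Prime := ⟨hGG g hg⟩
      have h1 : ((V * a g - U : ℤ) : ZMod g) ≠ 0 := by
        rw [Ne, ZMod.intCast_zmod_eq_zero_iff_dvd]; exact hb2
      have h2 : ((V * a g - U : ℤ) : ZMod g) = (((V : ℤ) : ZMod g) * r + ((S : ℤ) : ZMod g)) * (e : ZMod g) := by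
        have h3 : (V * a g - U : ℤ) = V * (a g - n e) + S * e := by
          have := hline e heC
          linear_combination this
        rw [h3]
        push_cast
        push_cast at hreq
        rw [hreq]
        ring
      have h4 : (((V : ℤ) : ZMod g) * r + ((S : ℤ) : ZMod g)) ≠ 0 := by
        intro h0
        rw [h0, zero_mul] at h2
        exact h1 h2
      rw [h2]
      field_simp)
  exact numeric K K' GG.card B W M C1.card hK2 hls hC1M N5

end Crest.Agent.R1.ST
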