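import Crest.Agent.R1.ST5
import Crest.Agent.Lib.PNT

/-!
R1, structure theorem (ST), part 6: choice of parameters.
-/

namespace Crest.Agent.R1.ST

open Finset Real

/-- many primes in dyadic intervals (weak form). -/
lemma many_primes : ∃ x0 : ℝ, 1 ≤ x0 ∧ ∀ P : ℕ, x0 ≤ P →
    Real.sqrt P ≤ (((Finset.Icc P (2 * P)).filter Nat.Prime).card : ℝ) := by
  obtain ⟨Y, hY1, hY⟩ := Crest.Agent.Lib.PNT.abs_primeCounting_sub_le (show (0:ℝ) < 1/8 by norm_num)
  -- log y ≤ 4 y^{1/4}
  refine ⟨max Y (10 ^ 8), le_max_of_le_left hY1.le, fun P hP => ?_⟩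
  have hPY : Y ≤ P := (le_max_left _ _).trans hP
  have hP8 : (10:ℝ) ^ 8 ≤ P := (le_max_right _ _).trans hP
  have hP0 : (0:ℝ) < P := by linarith [show (0:ℝ) < 10 ^ 8 by norm_num]
  have h1 := abs_le.1 (hY P hPY)
  have h2 := abs_le.1 (hY (2 * P) (by linarith))
  have hl : 0 < Real.log P := Real.log_pos (by linarith [show (1:ℝ) < 10 ^ 8 by norm_num])
  have hlog2 : Real.log (2 * P) = Real.log 2 + Real.log P := Real.log_mul (by norm_num) hP0.ne'
  have hl2 : Real.log 2 ≤ Real.log P / 8 := by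
    have h3 : Real.log ((2:ℝ) ^ 8) ≤ Real.log P := Real.log_le_log (by norm_num) (by linarith [show (2:ℝ)^8 ≤ 10^8 by norm_num])
    rw [Real.log_pow] at h3
    push_cast at h3
    linarith
  have hfl1 : ⌊(P:ℝ)⌋₊ = P := Nat.floor_natCast P
  have hfl2 : ⌊(2 * P:ℝ)⌋₊ = 2 * P := by
    have : (2 * P : ℝ) = ((2 * P : ℕ) : ℝ) := by push_cast; ring
    rw [this, Nat.floor_natCast]
  rw [hfl1] at h1
  rw [hfl2] at h2
  -- count
  have hcard : (Nat.primeCounting (2 * P) : ℝ) - Nat.primeCounting P ≤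
      (((Finset.Icc P (2 * P)).filter Nat.Prime).card : ℝ) := by
    have h3 : Nat.primeCounting (2 * P) ≤ Nat.primeCounting P + ((Finset.Icc P (2 * P)).filter Nat.Prime).card := by
      unfold Nat.primeCounting Nat.primeCounting'
      rw [Nat.count_eq_card_filter_range, Nat.count_eq_card_filter_range]
      have h4 : (Finset.range (2 * P + 1)).filter Nat.Prime ⊆
          (Finset.range (P + 1)).filter Nat.Prime ∪ (Finset.Icc P (2 * P)).filter Nat.Prime := by
        intro x hx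
        rw [Finset.mem_filter, Finset.mem_range] at hx
        rw [Finset.mem_union, Finset.mem_filter, Finset.mem_filter, Finset.mem_range, Finset.mem_Icc]
        by_cases hxP : x < P + 1
        · exact Or.inl ⟨hxP, hx.2⟩
        · exact Or.inr ⟨⟨by omega, by omega⟩, hx.2⟩
      exact (Finset.card_le_card h4).trans (Finset.card_union_le _ _)
    have h5 : (Nat.primeCounting (2 * P) : ℝ) ≤ Nat.primeCounting P + ((Finset.Icc P (2 * P)).filter Nat.Prime).card := by
      exact_mod_cast h3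
    linarith
  refine le_trans ?_ hcard
  set A : ℝ := P / Real.log P with hA
  have hA0 : 0 < A := by positivity
  have h2' : (7/8) * ((2 * P) / Real.log (2 * P)) ≤ Nat.primeCounting (2 * P) := by linarith [h2.1]
  have h1' : (Nat.primeCounting P : ℝ) ≤ (9/8) * A := by linarith [h1.2]
  have h6 : (16/9) * A ≤ (2 * P) / Real.log (2 * P) := by
    rw [hA, le_div_iff₀ (by rw [hlog2]; linarith [Real.log_pos (show (1:ℝ) < 2 by norm_num)])]
    rw [hlog2]
    have : 16 / 9 * (P / Real.log P) * (Real.log 2 + Real.log P) ≤ 16/9 * (P / Real.log P) * (Real.log P / 8 + Real.log P) := by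
      gcongr
    refine this.trans (le_of_eq ?_)
    field_simp
    ring
  have h7 : A / 4 ≤ (Nat.primeCounting (2 * P) : ℝ) - Nat.primeCounting P := by
    nlinarith
  refine le_trans ?_ h7
  -- sqrt P ≤ P / (4 log P)
  have h8 : Real.log P ≤ Real.sqrt P / 4 := by
    have h9 : Real.log (P ^ ((1:ℝ)/4)) ≤ (P:ℝ) ^ ((1:ℝ)/4) := by
      have := Real.log_le_sub_one_of_pos (show 0 < (P:ℝ) ^ ((1:ℝ)/4) by positivity)
      linarith
    rw [Real.log_rpow hP0] at h9
    have h10 : (100:ℝ) ≤ (P:ℝ) ^ ((1:ℝ)/4) := by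
      have h11 : ((10:ℝ) ^ 8) ^ ((1:ℝ)/4) = 100 := by
        rw [← Real.rpow_natCast, ← Real.rpow_mul (by norm_num)]
        norm_num
      rw [← h11]
      exact Real.rpow_le_rpow (by norm_num) hP8 (by norm_num)
    have h12 : Real.sqrt P = (P:ℝ) ^ ((1:ℝ)/4) * (P:ℝ) ^ ((1:ℝ)/4) := by
      rw [Real.sqrt_eq_rpow, ← Real.rpow_add hP0]; norm_num
    rw [h12]
    nlinarith
  have hs : 0 < Real.sqrt P := Real.sqrt_pos.2 hP0
  have h13 : (P:ℝ) = Real.sqrt P * Real.sqrt P := (Real.mul_self_sqrt hP0.le).symm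
  rw [hA, div_div, le_div_iff₀ (by positivity)]
  calc Real.sqrt P * (Real.log P * 4) ≤ Real.sqrt P * (Real.sqrt P / 4 * 4) := by gcongr
    _ = Real.sqrt P * Real.sqrt P := by ring
    _ = P := h13.symm

end Crest.Agent.R1.ST
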