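import Crest.Agent.R1.ST6

/-!
R1, structure theorem (ST), part 7: the final form.
-/

namespace Crest.Agent.R1.ST

open Finset Real

lemma pow_eq_exp (a n : ℕ) (ha : 0 < a) : ((a : ℝ)) ^ n = Real.exp (n * Real.log a) := by
  rw [Real.exp_nat_mul, Real.exp_log (by exact_mod_cast ha)]

/-- the numerical choices. -/
lemma params (Y G B K D h : ℕ) (hY : 2 ≤ Y) (hG : 2 ≤ G) (hKB : K ≤ B)
    (hK : 1 ≤ K) (hGY : (G : ℝ) ≤ Y)
    (h3 : 512 * (B : ℝ) * Real.log (2 * Y) ≤ (K : ℝ) ^ 2 * Real.log G)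
    (hD : D = ⌊(K : ℝ) * Real.log G / (8 * Real.log (2 * Y))⌋₊) (hh : h = 4 * B / D + 1) :
    1 ≤ D ∧ 8 * (D:ℝ) ≤ K ∧ (G ^ 2) ^ (2 * D * B) < (G ^ h + 1) ^ (D * D) ∧
    (2 * Y) ^ (5 * D) * G ^ h < G ^ K := by
  have hl : 0 < Real.log G := Real.log_pos (by exact_mod_cast hG)
  have hY' : (2:ℝ) ≤ Y := by exact_mod_cast hY
  have hG' : (2:ℝ) ≤ G := by exact_mod_cast hG
  have hly : 0 < Real.log (2 * Y) := Real.log_pos (by linarith)
  have hlly : Real.log G ≤ Real.log (2 * Y) := Real.log_le_log (by linarith) (by linarith)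
  have hK' : (1:ℝ) ≤ K := by exact_mod_cast hK
  have hKB' : (K:ℝ) ≤ B := by exact_mod_cast hKB
  set l := Real.log G with hldef
  set ly := Real.log (2 * Y) with hlydef
  -- 512 ly ≤ K l
  have e1 : 512 * ly ≤ K * l := by
    have e2 : (512 * ly) * K ≤ (K * l) * K := by
      calc (512 * ly) * K = 512 * (K:ℝ) * ly := by ring
        _ ≤ 512 * (B:ℝ) * ly := by gcongr
        _ ≤ (K:ℝ) ^ 2 * l := h3
        _ = (K * l) * K := by ring
    exact le_of_mul_le_mul_right e2 (by linarith)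
  set x := (K : ℝ) * l / (8 * ly) with hx
  have hx64 : 64 ≤ x := by
    rw [hx, le_div_iff₀ (by positivity)]
    linarith
  have hDx : (D:ℝ) ≤ x := by rw [hD]; exact Nat.floor_le (by linarith)
  have hDx2 : x / 2 ≤ D := by
    have := Nat.lt_floor_add_one x
    rw [← hD] at this
    linarith
  have hD1 : 1 ≤ D := by
    have : (1:ℝ) ≤ D := by linarith
    exact_mod_cast this
  have hD0 : (0:ℝ) < D := by exact_mod_cast hD1
  have hxK : 8 * x ≤ K := by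
    rw [hx]
    calc 8 * ((K:ℝ) * l / (8 * ly)) = K * (l / ly) := by field_simp
      _ ≤ K * 1 := by gcongr; exact (div_le_one hly).2 hlly
      _ = K := mul_one _
  have hDly : (D:ℝ) * ly ≤ K * l / 8 := by
    calc (D:ℝ) * ly ≤ x * ly := by gcongr
      _ = K * l / 8 := by rw [hx]; field_simp
  have hK512 : (512:ℝ) ≤ K := by linarith
  -- h ≤ K / 4
  have hhle : (h:ℝ) ≤ K / 4 := by
    have e2 : (h:ℝ) ≤ 4 * B / D + 1 := by
      rw [hh]
      push_cast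
      have := @Nat.cast_div_le ℝ _ _ _ (4 * B) D
      push_cast at this
      linarith
    have e3 : 4 * (B:ℝ) / D ≤ K / 8 := by
      rw [div_le_div_iff₀ hD0 (by norm_num)]
      have e4 : (K:ℝ) * (x / 2) ≤ K * D := by gcongr
      refine le_trans ?_ e4
      rw [hx]
      have e5 : (K:ℝ) * (K * l / (8 * ly) / 2) = (K:ℝ) ^ 2 * l / (16 * ly) := by field_simp; ring
      rw [e5, le_div_iff₀ (by positivity)]
      linarith
    linarith
  refine ⟨hD1, by linarith, ?_, ?_⟩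
  · have e2 : 4 * B ≤ h * D := by
      rw [hh]
      have := Nat.lt_div_mul_add (a := 4 * B) (b := D) (by omega)
      nlinarith
    calc (G ^ 2) ^ (2 * D * B) = G ^ ((4 * B) * D) := by rw [← pow_mul]; congr 1; ring
      _ ≤ G ^ (h * D * D) := Nat.pow_le_pow_right (by omega) (Nat.mul_le_mul_right _ e2)
      _ = (G ^ h) ^ (D * D) := by rw [← pow_mul]; congr 1; ring
      _ < (G ^ h + 1) ^ (D * D) := Nat.pow_lt_pow_left (by omega) (by positivity)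
  · have e2 : (((2 * Y) ^ (5 * D) * G ^ h : ℕ) : ℝ) < ((G ^ K : ℕ) : ℝ) := by
      push_cast
      have e3 : (2 * (Y:ℝ)) ^ (5 * D) = Real.exp ((5 * D : ℕ) * ly) := by
        have := pow_eq_exp (2 * Y) (5 * D) (by omega)
        push_cast at this
        rw [this]
        push_cast
        rfl
      rw [e3, pow_eq_exp G h (by omega), pow_eq_exp G K (by omega), ← Real.exp_add, Real.exp_lt_exp]
      push_cast
      rw [← hldef]
      have e4 : (h:ℝ) * l ≤ K / 4 * l := by gcongr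
      have e5 : 0 < (K:ℝ) * l := by positivity
      nlinarith
    exact_mod_cast e2

set_option maxHeartbeats 4000000 in
/-- **Structure theorem**, final form with explicit parameters. -/
theorem main : ∃ Y0 : ℕ, ∀ Y : ℕ, Y0 ≤ Y → ∀ (a : ℤ) (E : Finset ℤ)
    (_ : ∀ e ∈ E, (Y : ℤ) ≤ e ∧ e ≤ 2 * Y)
    (GG : Finset ℕ) (_ : ∀ g ∈ GG, g.Prime) (G : ℕ) (_ : 2 ≤ G)
    (_ : ∀ g ∈ GG, G ≤ g ∧ g ≤ G ^ 2) (_ : (GG.card : ℝ) * G ≤ (Y : ℝ) ^ ((1 : ℝ) / 100))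
    (R : ∀ g : ℕ, Finset (ZMod g)) (B : ℕ) (_ : ∑ g ∈ GG, (R g).card ≤ B)
    (K : ℕ) (_ : 1 ≤ K) (bad : ℤ → ℕ → Prop) [∀ e g, Decidable (bad e g)]
    (_ : ∀ e ∈ E, ∀ g ∈ GG, bad e g → ((a / e : ℤ) : ZMod g) ∈ R g)
    (_ : ∀ e ∈ E, K ≤ (GG.filter (fun g => bad e g)).card)
    (_ : 512 * (B : ℝ) * Real.log (2 * Y) ≤ (K : ℝ) ^ 2 * Real.log G)
    (_ : (Y : ℝ) ^ ((9 : ℝ) / 10) ≤ E.card),
    ∃ V S U : ℤ, 1 ≤ V ∧ IsCoprime V S ∧
      (V : ℝ) ≤ 32 * (GG.card : ℝ) ^ 2 * Y / E.card ∧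
      |(S : ℝ)| ≤ 64 * (GG.card : ℝ) ^ 2 * Y / E.card ∧
      |(U : ℝ)| ≤ 192 * (GG.card : ℝ) ^ 2 * (Y : ℝ) ^ 2 / E.card ∧
      ∃ E' ⊆ E, (E.card : ℝ) ≤ 96 * (Y : ℝ) ^ ((2 : ℝ) / 3) * (GG.card : ℝ) ^ 2 * E'.card ∧
        ∀ e ∈ E', e ∣ V * a - U ∧ V * (a % e) = U + S * e ∧
          (GG.filter (fun g => bad e g)).card ≤
            2 * (GG.filter (fun g => bad e g ∧ (g : ℤ) ∣ V * a - U)).card := by
  obtain ⟨x0, hx0, hprimes⟩ := many_primes
  -- eventual inequalities in Y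
  have hev : ∀ᶠ Y : ℕ in Filter.atTop, (2:ℝ) ≤ Y ∧ x0 ≤ 2 * (Y:ℝ) ^ ((2:ℝ)/3) ∧
      (10 ^ 6 : ℝ) ≤ (Y:ℝ) ^ ((1:ℝ)/100) := by
    have h1 : Filter.Tendsto (fun Y : ℕ => (Y:ℝ)) Filter.atTop Filter.atTop := tendsto_natCast_atTop_atTop
    have h2 := (tendsto_rpow_atTop (show (0:ℝ) < 2/3 by norm_num)).comp h1
    have h3 := (tendsto_rpow_atTop (show (0:ℝ) < 1/100 by norm_num)).comp h1
    filter_upwards [h1.eventually_ge_atTop 2, h2.eventually_ge_atTop x0,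
      h3.eventually_ge_atTop (10 ^ 6)] with Y a1 a2 a3
    simp only [Function.comp_apply] at a2 a3
    exact ⟨a1, by linarith, a3⟩
  obtain ⟨Y0, hY0⟩ := Filter.eventually_atTop.1 hev
  refine ⟨Y0, fun Y hY a E hE GG hGG G hG2 hGr hGq R B hR K hK bad _ hbadR hbad h3 hEc => ?_⟩
  obtain ⟨hYr, hYx0, hY6⟩ := hY0 Y hY
  set q := GG.card with hq
  have hY2 : 2 ≤ Y := by exact_mod_cast hYr
  have hYpos : (0:ℝ) < Y := by linarith
  have hY1 : (1:ℝ) ≤ Y := by linarith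
  -- E is nonempty
  have hE0 : 0 < E.card := by
    have : (0:ℝ) < E.card := lt_of_lt_of_le (by positivity) hEc
    exact_mod_cast this
  obtain ⟨e0, he0⟩ := Finset.card_pos.1 hE0
  have hKq : K ≤ q := (hbad e0 he0).trans (Finset.card_filter_le _ _)
  have hKB : K ≤ B := by
    calc K ≤ (GG.filter (fun g => bad e0 g)).card := hbad e0 he0
      _ = ∑ g ∈ GG.filter (fun g => bad e0 g), 1 := by rw [Finset.sum_const, smul_eq_mul, mul_one]
      _ ≤ ∑ g ∈ GG.filter (fun g => bad e0 g), (R g).card := by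
          refine Finset.sum_le_sum (fun g hg => ?_)
          obtain ⟨hg1, hg2⟩ := Finset.mem_filter.1 hg
          exact Finset.card_pos.2 ⟨_, hbadR e0 he0 g hg1 hg2⟩
      _ ≤ ∑ g ∈ GG, (R g).card := Finset.sum_le_sum_of_subset (Finset.filter_subset _ _)
      _ ≤ B := hR
  have hq1 : 1 ≤ q := hK.trans hKq
  have hq1' : (1:ℝ) ≤ q := by exact_mod_cast hq1
  have hG1' : (2:ℝ) ≤ G := by exact_mod_cast hG2
  set t := (Y:ℝ) ^ ((1:ℝ)/100) with ht
  have htpos : 0 < t := by positivity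
  have hpow : ∀ n : ℕ, t ^ n = (Y:ℝ) ^ ((n:ℝ)/100) := by
    intro n
    rw [ht, ← Real.rpow_natCast, ← Real.rpow_mul hYpos.le]
    congr 1; ring
  have hqt : (q:ℝ) ≤ t := by nlinarith
  have hGt : (G:ℝ) ≤ t := by nlinarith
  have htY : t ≤ Y := by
    rw [ht]
    calc (Y:ℝ) ^ ((1:ℝ)/100) ≤ (Y:ℝ) ^ (1:ℝ) := Real.rpow_le_rpow_of_exponent_le hY1 (by norm_num)
      _ = Y := Real.rpow_one _
  obtain ⟨D, hD⟩ : ∃ D, D = ⌊(K : ℝ) * Real.log G / (8 * Real.log (2 * Y))⌋₊ := ⟨_, rfl⟩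
  obtain ⟨h, hh⟩ : ∃ h, h = 4 * B / D + 1 := ⟨_, rfl⟩
  obtain ⟨hD1, hDK, hN1, hN2⟩ := params Y G B K D h hY2 hG2 hKB hK (hGt.trans htY) h3 hD hh
  have hDq : (D:ℝ) ≤ q := by
    have : (K:ℝ) ≤ q := by exact_mod_cast hKq
    have : (0:ℝ) ≤ D := by positivity
    linarith
  have hDt : (D:ℝ) ≤ t := hDq.trans hqt
  have hD1' : (1:ℝ) ≤ D := by exact_mod_cast hD1
  -- the prime range
  set P : ℕ := ⌈2 * (Y:ℝ) ^ ((2:ℝ)/3)⌉₊ with hP
  have hPl : 2 * (Y:ℝ) ^ ((2:ℝ)/3) ≤ P := Nat.le_ceil _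
  have hY23 : (1:ℝ) ≤ (Y:ℝ) ^ ((2:ℝ)/3) := Real.one_le_rpow hY1 (by norm_num)
  have hPu : (P:ℝ) ≤ 3 * (Y:ℝ) ^ ((2:ℝ)/3) := by
    have := Nat.ceil_lt_add_one (show 0 ≤ 2 * (Y:ℝ) ^ ((2:ℝ)/3) by positivity)
    rw [← hP] at this
    linarith
  have hPpos : (0:ℝ) < P := by linarith
  have hPY : 4 * Y ^ 2 < P ^ 3 := by
    have h1 : (4 * (Y:ℝ) ^ 2) < (P:ℝ) ^ 3 := by
      calc 4 * (Y:ℝ) ^ 2 < 8 * (Y:ℝ) ^ 2 := by nlinarith
        _ = (2 * (Y:ℝ) ^ ((2:ℝ)/3)) ^ 3 := by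
            rw [mul_pow, ← Real.rpow_natCast ((Y:ℝ) ^ ((2:ℝ)/3)) 3, ← Real.rpow_mul hYpos.le]
            norm_num
        _ ≤ (P:ℝ) ^ 3 := by gcongr
    exact_mod_cast h1
  have hY66 : t ^ 66 ≤ (Y:ℝ) ^ ((2:ℝ)/3) := by
    rw [hpow]
    exact Real.rpow_le_rpow_of_exponent_le hY1 (by norm_num)
  have hY67 : (Y:ℝ) ^ ((2:ℝ)/3) ≤ t ^ 67 := by
    rw [hpow]
    exact Real.rpow_le_rpow_of_exponent_le hY1 (by norm_num)
  have hY90 : t ^ 90 = (Y:ℝ) ^ ((9:ℝ)/10) := by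
    rw [hpow]; norm_num
  have ht1 : 1 ≤ t := by linarith [show (1:ℝ) ≤ 10 ^ 6 by norm_num]
  set PP : Finset ℕ := (Finset.Icc P (2 * P)).filter Nat.Prime with hPP
  have hPPc : 2 * q ≤ PP.card := by
    have h1 := hprimes P (hYx0.trans hPl)
    have h2 : 2 * t ≤ Real.sqrt P := by
      apply Real.le_sqrt_of_sq_le
      calc (2 * t) ^ 2 = 4 * t ^ 2 := by ring
        _ ≤ t * t ^ 2 := by
            have : 4 ≤ t := by linarith [show (4:ℝ) ≤ 10 ^ 6 by norm_num]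
            gcongr
        _ = t ^ 3 := by ring
        _ ≤ t ^ 66 := pow_le_pow_right₀ ht1 (by norm_num)
        _ ≤ (Y:ℝ) ^ ((2:ℝ)/3) := hY66
        _ ≤ P := by linarith
    have h3 : ((2 * q : ℕ) : ℝ) ≤ PP.card := by
      push_cast; linarith
    exact_mod_cast h3
  have hPPne : PP.Nonempty := by
    rw [← Finset.card_pos]; omega
  -- M
  obtain ⟨M, hM⟩ : ∃ M, M = E.card / (8 * P * D ^ 2) := ⟨_, rfl⟩
  have hPD : 0 < 8 * P * D ^ 2 := by
    have : 0 < P := by exact_mod_cast hPpos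
    positivity
  have hratio : t ^ 20 ≤ (E.card : ℝ) / (8 * P * D ^ 2) := by
    rw [le_div_iff₀ (by positivity)]
    calc t ^ 20 * (8 * P * (D:ℝ) ^ 2) ≤ t ^ 20 * (8 * (3 * t ^ 67) * t ^ 2) := by
          have : (P:ℝ) ≤ 3 * t ^ 67 := hPu.trans (by linarith)
          gcongr
      _ = 24 * t ^ 89 := by ring
      _ ≤ t * t ^ 89 := by
          have : 24 ≤ t := by linarith [show (24:ℝ) ≤ 10 ^ 6 by norm_num]
          gcongr
      _ = t ^ 90 := by ring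
      _ ≤ E.card := by rw [hY90]; exact hEc
  have hMl : (E.card : ℝ) / (8 * P * D ^ 2) / 2 ≤ M := by
    have h1 := Nat.lt_div_mul_add (a := E.card) (b := 8 * P * D ^ 2) hPD
    have h2 : (E.card : ℝ) < M * (8 * P * D ^ 2) + 8 * P * D ^ 2 := by
      rw [hM]; exact_mod_cast h1
    have h3 : (E.card : ℝ) / (8 * P * D ^ 2) < M + 1 := by
      rw [div_lt_iff₀ (by positivity)]
      linarith
    have h4 : (2:ℝ) ≤ t ^ 20 := by
      calc (2:ℝ) ≤ t := by linarith [show (2:ℝ) ≤ 10 ^ 6 by norm_num]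
        _ = t ^ 1 := (pow_one _).symm
        _ ≤ t ^ 20 := pow_le_pow_right₀ ht1 (by norm_num)
    linarith
  have hMt : t ≤ M := by
    have h4 : 2 * t ≤ t ^ 20 := by
      calc 2 * t ≤ t * t := by
            have : (2:ℝ) ≤ t := by linarith [show (2:ℝ) ≤ 10 ^ 6 by norm_num]
            gcongr
        _ = t ^ 2 := by ring
        _ ≤ t ^ 20 := pow_le_pow_right₀ ht1 (by norm_num)
    linarith
  have hM1 : 1 ≤ M := by
    have : (1:ℝ) ≤ M := ht1.trans hMt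
    exact_mod_cast this
  have hqM : (q:ℝ) ≤ M := hqt.trans hMt
  have hMu : M * (8 * P * D ^ 2) ≤ E.card := by rw [hM]; exact Nat.div_mul_le_self _ _
  -- W
  have hlG : 0 < Real.log G := Real.log_pos (by linarith)
  have hly : Real.log Y ≤ Real.log (2 * Y) := Real.log_le_log hYpos (by linarith)
  have hlY0 : 0 ≤ Real.log Y := Real.log_nonneg hY1
  obtain ⟨W, hWd⟩ : ∃ W, W = ⌊Real.log Y / Real.log G⌋₊ := ⟨_, rfl⟩
  have hW1 : Y < G ^ (W + 1) := by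
    have h1 : Real.log Y / Real.log G < W + 1 := by rw [hWd]; exact Nat.lt_floor_add_one _
    rw [div_lt_iff₀ hlG] at h1
    have h2 : (Y:ℝ) < ((G ^ (W + 1) : ℕ) : ℝ) := by
      push_cast
      rw [pow_eq_exp G (W + 1) (by omega), ← Real.log_lt_iff_lt_exp hYpos]
      push_cast
      exact h1
    exact_mod_cast h2
  have hWle : (W:ℝ) ≤ Real.log Y / Real.log G := by
    rw [hWd]; exact Nat.floor_le (by positivity)
  have hN5 : 8 * q * B + 4 * B * W * M < K ^ 2 * M := by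
    have h1 : (8 * (q:ℝ) * B + 4 * B * W * M) < (K:ℝ) ^ 2 * M := by
      have hK0 : (1:ℝ) ≤ K := by exact_mod_cast hK
      have hM0 : (1:ℝ) ≤ M := by exact_mod_cast hM1
      have hlGY : Real.log G ≤ Real.log (2 * Y) := Real.log_le_log (by linarith) (by linarith [hGt.trans htY])
      have h2 : (B:ℝ) * 512 ≤ (K:ℝ) ^ 2 := by
        have h4 : ((B:ℝ) * 512) * Real.log (2 * Y) ≤ (K:ℝ) ^ 2 * Real.log (2 * Y) := by
          calc ((B:ℝ) * 512) * Real.log (2 * Y) = 512 * (B:ℝ) * Real.log (2 * Y) := by ring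
            _ ≤ (K:ℝ) ^ 2 * Real.log G := h3
            _ ≤ _ := by gcongr
        exact le_of_mul_le_mul_right h4 (by linarith)
      have h5 : (B:ℝ) * W * 512 ≤ (K:ℝ) ^ 2 := by
        calc (B:ℝ) * W * 512 ≤ B * (Real.log (2 * Y) / Real.log G) * 512 := by
              have : (W:ℝ) ≤ Real.log (2 * Y) / Real.log G := hWle.trans (by gcongr)
              gcongr
          _ = (512 * (B : ℝ) * Real.log (2 * Y)) / Real.log G := by field_simp
          _ ≤ ((K:ℝ) ^ 2 * Real.log G) / Real.log G := by gcongr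
          _ = (K:ℝ) ^ 2 := by field_simp
      have h6 : 8 * (q:ℝ) * B ≤ (K:ℝ) ^ 2 * M / 64 := by
        calc 8 * (q:ℝ) * B = (B:ℝ) * 512 * q / 64 := by ring
          _ ≤ (K:ℝ) ^ 2 * M / 64 := by gcongr
      have h7 : 4 * (B:ℝ) * W * M ≤ (K:ℝ) ^ 2 * M / 128 := by
        calc 4 * (B:ℝ) * W * M = ((B:ℝ) * W * 512) * M / 128 := by ring
          _ ≤ (K:ℝ) ^ 2 * M / 128 := by gcongr
      have h8 : 0 < (K:ℝ) ^ 2 * M := by positivity
      linarith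
    exact_mod_cast h1
  have hN4 : D + 2 * D * (2 * P * D * M) < E.card := by
    have h1 : 2 * D * (2 * P * D * M) * 2 ≤ E.card := by
      calc 2 * D * (2 * P * D * M) * 2 = M * (8 * P * D ^ 2) := by ring
        _ ≤ E.card := hMu
    have h2 : 2 * D < E.card := by
      have h4 : (2 * (D:ℝ)) < E.card := by
        calc 2 * (D:ℝ) ≤ 2 * t := by linarith
          _ < t * t := by nlinarith [show (2:ℝ) < 10 ^ 6 by norm_num]
          _ = t ^ 2 := by ring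
          _ ≤ t ^ 90 := pow_le_pow_right₀ ht1 (by norm_num)
          _ ≤ E.card := by rw [hY90]; exact hEc
      exact_mod_cast h4
    omega
  have h2Y : D ≤ 2 * Y := by
    have : (D:ℝ) ≤ Y := hDt.trans htY
    have : D ≤ Y := by exact_mod_cast this
    omega
  have hN2' : D * D * G ^ h * (2 * Y) ^ (2 * D) < G ^ K := by
    refine lt_of_le_of_lt ?_ hN2
    have h1 : D * D ≤ (2 * Y) ^ (3 * D) := by
      calc D * D ≤ (2 * Y) * (2 * Y) := Nat.mul_le_mul h2Y h2Y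
        _ = (2 * Y) ^ 2 := by ring
        _ ≤ (2 * Y) ^ (3 * D) := Nat.pow_le_pow_right (by omega) (by omega)
    calc D * D * G ^ h * (2 * Y) ^ (2 * D) ≤ (2 * Y) ^ (3 * D) * G ^ h * (2 * Y) ^ (2 * D) := by
          gcongr
      _ = (2 * Y) ^ (5 * D) * G ^ h := by
          rw [show 5 * D = 3 * D + 2 * D by ring, pow_add]; ring
  have hTT : D ^ (D + 2) * G ^ h * (2 * Y) ^ (2 * D) < P ^ (q + 1) := by
    have h1 : D ^ (D + 2) ≤ (2 * Y) ^ (3 * D) := by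
      calc D ^ (D + 2) ≤ (2 * Y) ^ (D + 2) := Nat.pow_le_pow_left h2Y _
        _ ≤ (2 * Y) ^ (3 * D) := Nat.pow_le_pow_right (by omega) (by omega)
    have hGP : G ≤ P := by
      have : (G:ℝ) ≤ P := by
        calc (G:ℝ) ≤ t := hGt
          _ = t ^ 1 := (pow_one _).symm
          _ ≤ t ^ 66 := pow_le_pow_right₀ ht1 (by norm_num)
          _ ≤ (Y:ℝ) ^ ((2:ℝ)/3) := hY66
          _ ≤ P := by linarith
      exact_mod_cast this
    calc D ^ (D + 2) * G ^ h * (2 * Y) ^ (2 * D) ≤ (2 * Y) ^ (3 * D) * G ^ h * (2 * Y) ^ (2 * D) := by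
          gcongr
      _ = (2 * Y) ^ (5 * D) * G ^ h := by
          rw [show 5 * D = 3 * D + 2 * D by ring, pow_add]; ring
      _ < G ^ K := hN2
      _ ≤ G ^ (q + 1) := Nat.pow_le_pow_right (by omega) (by omega)
      _ ≤ P ^ (q + 1) := Nat.pow_le_pow_left hGP _
  classical
  obtain ⟨V, S, U, hV, hcop, hVb, hSb, E', hE', hE'M, hE'p⟩ := core Y (by omega) E hE
    (fun e => a % e)
    (fun e he => by
      obtain ⟨h1, h2⟩ := hE e he
      have h4 : (0:ℤ) < e := by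
        have : (0:ℤ) < Y := by exact_mod_cast (by omega : 0 < Y)
        linarith
      exact ⟨Int.emod_nonneg _ h4.ne', (Int.emod_lt_of_pos _ h4).le.trans h2⟩)
    GG hGG G (G ^ 2) (by omega) (fun g hg => (hGr g hg).1) (fun g hg => (hGr g hg).2)
    (fun _ => a) R B hR K bad
    (fun e he g hg hb => ⟨_, hbadR e he g hg hb, by
      have h1 : a - a % e = (a / e) * e := by
        have := Int.mul_ediv_add_emod a e
        linarith
      rw [h1]; push_cast; rfl⟩)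
    hbad D (G ^ h) (by omega) hN1 hN2' PP (fun p hp => (Finset.mem_filter.1 hp).2) hPPne P (2 * P)
    (fun p hp => (Finset.mem_Icc.1 (Finset.mem_filter.1 hp).1).1)
    (fun p hp => (Finset.mem_Icc.1 (Finset.mem_filter.1 hp).1).2) hPY q hTT hPPc M hM1 hN4 W hW1 hN5
  have hEr : (0:ℝ) < E.card := by exact_mod_cast hE0
  have hMr : (E.card : ℝ) ≤ 16 * P * (D:ℝ) ^ 2 * M := by
    have h1 : (E.card : ℝ) / (8 * P * D ^ 2) ≤ 2 * M := by linarith
    rw [div_le_iff₀ (by positivity)] at h1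
    linarith
  have hMpos : (0:ℝ) < M := by exact_mod_cast hM1
  have hVr : (0:ℝ) < V := by exact_mod_cast (by omega : 0 < V)
  have hVb' : (V:ℝ) * P * M ≤ 2 * Y := by exact_mod_cast hVb
  have hSb' : |(S:ℝ)| * P * M ≤ 4 * Y := by exact_mod_cast hSb
  have hVfin : (V:ℝ) ≤ 32 * (q:ℝ) ^ 2 * Y / E.card := by
    rw [le_div_iff₀ hEr]
    calc (V:ℝ) * E.card ≤ V * (16 * P * (D:ℝ) ^ 2 * M) := by gcongr
      _ = 16 * (D:ℝ) ^ 2 * (V * P * M) := by ring
      _ ≤ 16 * (q:ℝ) ^ 2 * (2 * Y) := by gcongr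
      _ = _ := by ring
  have hSfin : |(S:ℝ)| ≤ 64 * (q:ℝ) ^ 2 * Y / E.card := by
    rw [le_div_iff₀ hEr]
    calc |(S:ℝ)| * E.card ≤ |(S:ℝ)| * (16 * P * (D:ℝ) ^ 2 * M) := by gcongr
      _ = 16 * (D:ℝ) ^ 2 * (|(S:ℝ)| * P * M) := by ring
      _ ≤ 16 * (q:ℝ) ^ 2 * (4 * Y) := by gcongr
      _ = _ := by ring
  have hE'ne : E'.Nonempty := by
    rw [← Finset.card_pos]; omega
  refine ⟨V, S, U, hV, hcop, hVfin, hSfin, ?_, E', hE', ?_, ?_⟩
  · obtain ⟨e, he⟩ := hE'ne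
    have h1 := (hE'p e he).1
    obtain ⟨h2, h4⟩ := hE e (hE' he)
    have h5 : (0:ℤ) < e := by
      have : (0:ℤ) < Y := by exact_mod_cast (by omega : 0 < Y)
      linarith
    have h6 : (U:ℝ) = V * ((a % e : ℤ) : ℝ) - S * e := by
      have : U = V * (a % e) - S * e := by linarith
      rw [this]; push_cast; ring
    have h7 : |((a % e : ℤ) : ℝ)| ≤ 2 * Y := by
      rw [abs_of_nonneg (by exact_mod_cast Int.emod_nonneg _ h5.ne')]
      have : a % e ≤ 2 * Y := (Int.emod_lt_of_pos _ h5).le.trans h4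
      exact_mod_cast this
    have h8 : |(e:ℝ)| ≤ 2 * Y := by
      rw [abs_of_nonneg (by exact_mod_cast h5.le)]
      exact_mod_cast h4
    calc |(U:ℝ)| ≤ |(V:ℝ) * ((a % e : ℤ) : ℝ)| + |(S:ℝ) * e| := by rw [h6]; exact abs_sub _ _
      _ = V * |((a % e : ℤ) : ℝ)| + |(S:ℝ)| * |(e:ℝ)| := by rw [abs_mul, abs_mul, abs_of_pos hVr]
      _ ≤ (32 * (q:ℝ) ^ 2 * Y / E.card) * (2 * Y) + (64 * (q:ℝ) ^ 2 * Y / E.card) * (2 * Y) := by
          gcongr
      _ = _ := by ring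
  · calc (E.card : ℝ) ≤ 16 * P * (D:ℝ) ^ 2 * M := hMr
      _ ≤ 16 * (3 * (Y:ℝ) ^ ((2:ℝ)/3)) * (q:ℝ) ^ 2 * (2 * E'.card) := by
          have : (M:ℝ) ≤ 2 * E'.card := by exact_mod_cast hE'M
          gcongr
      _ = _ := by ring
  · intro e he
    obtain ⟨h1, h2⟩ := hE'p e he
    refine ⟨?_, h1, h2⟩
    have h4 : V * a - U = e * (S + V * (a / e)) := by
      have h5 := Int.mul_ediv_add_emod a e
      have h6 : V * (a % e) = U + S * e := h1
      calc V * a - U = V * (e * (a / e) + a % e) - U := by rw [h5]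
        _ = V * (a % e) - U + V * e * (a / e) := by ring
        _ = _ := by rw [h6]; ring
    exact ⟨_, h4⟩

end Crest.Agent.R1.ST
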