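import Crest.Agent.R1.ST8

/-!
R1, structure theorem (ST), part 9: the list form.
-/

namespace Crest.Agent.R1.ST

open Finset Real

lemma coprime_ratio_eq {U V U' V' : ℤ} (hV : 1 ≤ V) (hV' : 1 ≤ V') (h : IsCoprime U V)
    (h' : IsCoprime U' V') (he : V' * U = V * U') : V = V' ∧ U = U' := by
  have h1 : V ∣ V' := by
    have : V ∣ U * V' := ⟨U', by rw [mul_comm, he]⟩
    exact h.symm.dvd_of_dvd_mul_left this
  have h2 : V' ∣ V := by
    have : V' ∣ U' * V := ⟨U, by rw [mul_comm, ← he]⟩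
    exact h'.symm.dvd_of_dvd_mul_left this
  have h3 : V = V' := Int.dvd_antisymm (by omega) (by omega) h1 h2
  refine ⟨h3, ?_⟩
  subst h3
  exact mul_left_cancel₀ (by omega) he

set_option maxHeartbeats 4000000 in
set_option maxRecDepth 4000 in
/-- **Structure theorem, list form.** -/
theorem list : ∃ Y0 : ℕ, ∀ Y : ℕ, Y0 ≤ Y → ∀ (a : ℤ) (G : ℕ) (GG : Finset ℕ), 2 ≤ G →
    (∀ g ∈ GG, g.Prime) → (∀ g ∈ GG, G ≤ g ∧ g ≤ G ^ 2) →
    ((GG.card : ℝ) * G ≤ (Y : ℝ) ^ ((1 : ℝ) / 100)) → ∀ K0 : ℕ, 1 ≤ K0 →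
    (256 * (GG.card : ℝ) * Real.log (2 * Y) ≤ (K0 : ℝ) ^ 2 * Real.log G) →
    ∃ LL : Finset (ℤ × ℤ), LL.card * K0 ≤ 8 * GG.card ∧
      (∀ τ ∈ LL, 1 ≤ τ.2 ∧ (τ.2 : ℝ) ≤ (Y : ℝ) ^ ((1 : ℝ) / 5) ∧
        |(τ.1 : ℝ)| ≤ (Y : ℝ) ^ ((6 : ℝ) / 5) ∧ IsCoprime τ.1 τ.2 ∧
        K0 ≤ 4 * (GG.filter (fun g : ℕ => (g : ℤ) ∣ τ.2 * a - τ.1)).card) ∧
      ∀ (R : ∀ g : ℕ, Finset (ZMod g)) (K : ℕ), K0 ≤ K →
        (1024 * (∑ g ∈ GG, (R g).card : ℕ) * Real.log (2 * Y) ≤ (K : ℝ) ^ 2 * Real.log G) →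
        ∀ (E : Finset ℕ) (P : ℕ → ℕ → Prop) [∀ e g, Decidable (P e g)],
        (∀ e ∈ E, Y ≤ e ∧ e ≤ 2 * Y) →
        (∀ e ∈ E, ∀ g ∈ GG, P e g → ((a / (e : ℤ) : ℤ) : ZMod g) ∈ R g ∧
          ¬ (∃ τ ∈ LL, (g : ℤ) ∣ τ.2 * a - τ.1 ∧ ∃ h : ℕ, 1 ≤ h ∧ (h : ℝ) ≤ (Y : ℝ) ^ ((1 : ℝ) / 5) ∧
            h ∣ e ∧ (e : ℤ) ∣ h * (τ.2 * a - τ.1))) →
        (∀ e ∈ E, K ≤ (GG.filter (fun g => P e g)).card) →
        (E.card : ℝ) < (Y : ℝ) ^ ((9 : ℝ) / 10) := by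
  obtain ⟨Y0, hmain⟩ := main
  -- eventual inequalities
  have hev : ∀ᶠ Y : ℕ in Filter.atTop, (2:ℝ) ≤ Y ∧ (10 ^ 6 : ℝ) ≤ (Y:ℝ) ^ ((1:ℝ)/100) := by
    have h1 : Filter.Tendsto (fun Y : ℕ => (Y:ℝ)) Filter.atTop Filter.atTop := tendsto_natCast_atTop_atTop
    have h3 := (tendsto_rpow_atTop (show (0:ℝ) < 1/100 by norm_num)).comp h1
    filter_upwards [h1.eventually_ge_atTop 2, h3.eventually_ge_atTop (10 ^ 6)] with Y a1 a3
    simp only [Function.comp_apply] at a3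
    exact ⟨a1, a3⟩
  obtain ⟨Y1, hY1⟩ := Filter.eventually_atTop.1 hev
  refine ⟨max Y0 Y1, fun Y hY a G GG hG2 hGG hGr hGq K0 hK0 hK0c => ?_⟩
  obtain ⟨hYr, hY6⟩ := hY1 Y ((le_max_right _ _).trans hY)
  have hYpos : (0:ℝ) < Y := by linarith
  have hYone : (1:ℝ) ≤ Y := by linarith
  classical
  set q := GG.card with hq
  rcases lt_or_ge q K0 with hlt | hKq
  · -- trivial case
    refine ⟨∅, by simp, by simp, fun R K hK _ E P _ _ _ hPK => ?_⟩
    have : E = ∅ := by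
      apply Finset.eq_empty_of_forall_notMem
      intro e he
      have h1 := hPK e he
      have h2 := Finset.card_filter_le GG (fun g => P e g)
      omega
    rw [this]
    simp only [Finset.card_empty, Nat.cast_zero]
    positivity
  have hG1' : (2:ℝ) ≤ G := by exact_mod_cast hG2
  have hl : 0 < Real.log G := Real.log_pos (by linarith)
  have hly : 0 < Real.log (2 * Y) := Real.log_pos (by linarith)
  have hq1 : (1:ℝ) ≤ q := by exact_mod_cast hK0.trans hKq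
  set t := (Y:ℝ) ^ ((1:ℝ)/100) with ht
  have htpos : 0 < t := by positivity
  have hpow : ∀ n : ℕ, t ^ n = (Y:ℝ) ^ ((n:ℝ)/100) := by
    intro n
    rw [ht, ← Real.rpow_natCast, ← Real.rpow_mul hYpos.le]
    congr 1; ring
  have hqt : (q:ℝ) ≤ t := by nlinarith
  have hGt : (G:ℝ) ≤ t := by nlinarith
  have ht1 : (1:ℝ) ≤ t := by linarith [show (1:ℝ) ≤ 10 ^ 6 by norm_num]
  have hY20 : (Y:ℝ) ^ ((1:ℝ)/5) = t ^ 20 := by rw [hpow]; norm_num
  have hY120 : (Y:ℝ) ^ ((6:ℝ)/5) = t ^ 120 := by rw [hpow]; norm_num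
  have hY100 : (Y:ℝ) = t ^ 100 := by rw [hpow]; norm_num
  have hY90 : (Y:ℝ) ^ ((9:ℝ)/10) = t ^ 90 := by rw [hpow]; norm_num
  have hlx : 256 * Real.log (2 * Y) ≤ K0 * Real.log G := by
    have hK0q : (K0:ℝ) ≤ q := by exact_mod_cast hKq
    have h1 : (256 * Real.log (2 * Y)) * q ≤ (K0 * Real.log G) * q := by
      calc (256 * Real.log (2 * Y)) * q = 256 * (q:ℝ) * Real.log (2 * Y) := by ring
        _ ≤ (K0:ℝ) ^ 2 * Real.log G := hK0c
        _ = K0 * Real.log G * K0 := by ring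
        _ ≤ K0 * Real.log G * q := by gcongr
    exact le_of_mul_le_mul_right h1 (by linarith)
  -- overlap bound
  obtain ⟨W, hWd⟩ : ∃ W, W = ⌊2 * Real.log (2 * Y) / Real.log G⌋₊ := ⟨_, rfl⟩
  have hWle : (W:ℝ) ≤ 2 * Real.log (2 * Y) / Real.log G := by
    rw [hWd]; exact Nat.floor_le (by positivity)
  have hWlt : 2 * Real.log (2 * Y) < (W + 1) * Real.log G := by
    have := Nat.lt_floor_add_one (2 * Real.log (2 * Y) / Real.log G)
    rw [← hWd, div_lt_iff₀ hl] at this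
    exact this
  have hWpow : (2 * (Y:ℝ)) ^ 2 < (G:ℝ) ^ (W + 1) := by
    have h1 : (2 * (Y:ℝ)) ^ 2 = Real.exp (2 * Real.log (2 * Y)) := by
      rw [two_mul (Real.log _), Real.exp_add, Real.exp_log (by positivity)]; ring
    rw [h1, pow_eq_exp G (W + 1) (by omega), Real.exp_lt_exp]
    push_cast; exact hWlt
  have hW128 : 128 * (W:ℝ) ≤ K0 := by
    have h1 : (W:ℝ) * Real.log G ≤ 2 * Real.log (2 * Y) := by
      rwa [le_div_iff₀ hl] at hWle
    have h2 : (128 * (W:ℝ)) * Real.log G ≤ K0 * Real.log G := by nlinarith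
    exact le_of_mul_le_mul_right h2 hl
  -- the list
  obtain ⟨k, hk⟩ : ∃ k, k = (K0 + 3) / 4 := ⟨_, rfl⟩
  have hk4 : K0 ≤ 4 * k := by omega
  have hk1 : 1 ≤ k := by omega
  obtain ⟨b1, hb1⟩ : ∃ b1 : ℤ, b1 = ⌊(Y : ℝ) ^ ((1 : ℝ) / 5)⌋ := ⟨_, rfl⟩
  obtain ⟨b2, hb2⟩ : ∃ b2 : ℤ, b2 = ⌊(Y : ℝ) ^ ((6 : ℝ) / 5)⌋ := ⟨_, rfl⟩
  set LL : Finset (ℤ × ℤ) := ((Finset.Icc (-b2) b2) ×ˢ (Finset.Icc 1 b1)).filter
    (fun τ => IsCoprime τ.1 τ.2 ∧
      k ≤ (GG.filter (fun g : ℕ => (g : ℤ) ∣ τ.2 * a - τ.1)).card) with hLL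
  have hmem : ∀ τ : ℤ × ℤ, τ ∈ LL ↔ (1 ≤ τ.2 ∧ (τ.2 : ℝ) ≤ (Y : ℝ) ^ ((1 : ℝ) / 5) ∧
      |(τ.1 : ℝ)| ≤ (Y : ℝ) ^ ((6 : ℝ) / 5)) ∧ IsCoprime τ.1 τ.2 ∧
      k ≤ (GG.filter (fun g : ℕ => (g : ℤ) ∣ τ.2 * a - τ.1)).card := by
    intro τ
    rw [hLL, Finset.mem_filter, Finset.mem_product, Finset.mem_Icc, Finset.mem_Icc]
    have e1 : τ.2 ≤ b1 ↔ (τ.2 : ℝ) ≤ (Y : ℝ) ^ ((1 : ℝ) / 5) := by rw [hb1]; exact Int.le_floor
    have e2 : (-b2 ≤ τ.1 ∧ τ.1 ≤ b2) ↔ |(τ.1 : ℝ)| ≤ (Y : ℝ) ^ ((6 : ℝ) / 5) := by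
      rw [← abs_le]
      have : |(τ.1:ℝ)| = ((|τ.1| : ℤ) : ℝ) := by push_cast; rfl
      rw [this, ← Int.le_floor, ← hb2]
    rw [e1, e2]
    tauto
  have hRho : ∀ τ ∈ LL, Rho a ((Y : ℝ) ^ ((1 : ℝ) / 5)) ((Y : ℝ) ^ ((6 : ℝ) / 5)) GG k τ.2 τ.1 := by
    intro τ hτ
    obtain ⟨⟨h1, h2, h4⟩, -, h5⟩ := (hmem τ).1 hτ
    exact ⟨h1, h2, h4, h5⟩
  have hLLc : LL.card * k ≤ 2 * q := by
    have hswap : (LL.image Prod.swap).card = LL.card :=
      Finset.card_image_of_injective _ Prod.swap_injective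
    rw [← hswap]
    refine list_card a ((Y : ℝ) ^ ((1 : ℝ) / 5)) ((Y : ℝ) ^ ((6 : ℝ) / 5)) GG hGG G W k
      (fun g hg => (hGr g hg).1) (by omega) (by positivity) (by positivity) ?_ ?_
      (LL.image Prod.swap) ?_ ?_
    · refine lt_of_le_of_lt ?_ hWpow
      rw [hY20, hY120, hY100]
      calc 2 * t ^ 20 * t ^ 120 = 2 * t ^ 140 := by ring
        _ ≤ 4 * t ^ 200 := by
            have : t ^ 140 ≤ t ^ 200 := pow_le_pow_right₀ ht1 (by norm_num)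
            have : 0 < t ^ 200 := by positivity
            linarith
        _ = (2 * t ^ 100) ^ 2 := by ring
    · have h1 : (2 * (q:ℝ) * W) ≤ (k:ℝ) ^ 2 := by
        have h2 : (K0:ℝ) ≤ 4 * k := by exact_mod_cast hk4
        have h4 : (2 * (q:ℝ) * W) * 64 ≤ (K0:ℝ) ^ 2 := by
          have hq0 : (0:ℝ) ≤ 2 * (q:ℝ) := by linarith
          calc (2 * (q:ℝ) * W) * 64 ≤ (2 * (q:ℝ) * (2 * Real.log (2 * Y) / Real.log G)) * 64 :=
                mul_le_mul_of_nonneg_right (mul_le_mul_of_nonneg_left hWle hq0) (by norm_num)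
            _ = (256 * (q:ℝ) * Real.log (2 * Y)) / Real.log G := by ring
            _ ≤ ((K0:ℝ) ^ 2 * Real.log G) / Real.log G := by gcongr
            _ = (K0:ℝ) ^ 2 := by field_simp
        nlinarith [show (0:ℝ) ≤ K0 by positivity, show (0:ℝ) ≤ k by positivity]
      exact_mod_cast h1
    · intro τ hτ
      obtain ⟨σ, hσ, rfl⟩ := Finset.mem_image.1 hτ
      exact hRho σ hσ
    · intro τ hτ τ' hτ' hne heq
      obtain ⟨σ, hσ, rfl⟩ := Finset.mem_image.1 hτ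
      obtain ⟨σ', hσ', rfl⟩ := Finset.mem_image.1 hτ'
      simp only [Prod.fst_swap, Prod.snd_swap] at heq
      obtain ⟨⟨h1, -, -⟩, h2, -⟩ := (hmem σ).1 hσ
      obtain ⟨⟨h1', -, -⟩, h2', -⟩ := (hmem σ').1 hσ'
      obtain ⟨h4, h5⟩ := coprime_ratio_eq h1 h1' h2 h2' heq
      apply hne
      rw [Prod.ext h5 h4]
  refine ⟨LL, ?_, ?_, ?_⟩
  · calc LL.card * K0 ≤ LL.card * (4 * k) := Nat.mul_le_mul_left _ hk4
      _ = 4 * (LL.card * k) := by ring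
      _ ≤ 4 * (2 * q) := Nat.mul_le_mul_left _ hLLc
      _ = 8 * q := by ring
  · intro τ hτ
    obtain ⟨⟨h1, h2, h4⟩, h5, h6⟩ := (hmem τ).1 hτ
    exact ⟨h1, h2, h4, h5, hk4.trans (Nat.mul_le_mul_left _ h6)⟩
  intro R K hK0K hR E P _ hE hP hPK
  by_contra hcon
  push Not at hcon
  -- transfer to integers
  set EZ : Finset ℤ := E.image (fun e : ℕ => (e : ℤ)) with hEZ
  have hEZc : EZ.card = E.card := Finset.card_image_of_injective _ Nat.cast_injective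
  obtain ⟨K', hK'⟩ : ∃ K', K' = K - W := ⟨_, rfl⟩
  have hWK : 128 * W ≤ K := by
    have : 128 * W ≤ K0 := by exact_mod_cast hW128
    omega
  have hK1 : 1 ≤ K := hK0.trans hK0K
  have hK'1 : 1 ≤ K' := by omega
  have hK'K : 127 * K ≤ 128 * K' := by omega
  -- primes dividing e
  have hfew : ∀ e ∈ E, (GG.filter (fun g : ℕ => (g : ℤ) ∣ (e : ℤ))).card ≤ W := by
    intro e he
    obtain ⟨h1, h2⟩ := hE e he
    refine card_dvd_le GG hGG G (fun g hg => (hGr g hg).1) (by omega) _ ?_ W ?_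
    · have : 0 < e := by
        have : 0 < Y := by exact_mod_cast hYpos
        omega
      exact_mod_cast this.ne'
    · have h4 : ((e:ℕ) : ℝ) < (G:ℝ) ^ (W + 1) := by
        refine lt_of_le_of_lt ?_ hWpow
        have : (e:ℝ) ≤ 2 * Y := by exact_mod_cast h2
        nlinarith
      rw [abs_of_nonneg (by positivity)]
      exact_mod_cast h4
  have hcond : 512 * ((∑ g ∈ GG, (R g).card : ℕ) : ℝ) * Real.log (2 * Y) ≤ (K' : ℝ) ^ 2 * Real.log G := by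
    have h1 : 127 * (K:ℝ) ≤ 128 * K' := by exact_mod_cast hK'K
    have h2 : (K:ℝ) ^ 2 ≤ 2 * (K':ℝ) ^ 2 := by
      have : (0:ℝ) ≤ K := by positivity
      nlinarith
    have h4 : (K : ℝ) ^ 2 * Real.log G ≤ 2 * (K':ℝ) ^ 2 * Real.log G := by gcongr
    linarith
  obtain ⟨V, S, U, hV, hcop, hVb, -, hUb, E', hE', hEc, hE'p⟩ := hmain Y ((le_max_left _ _).trans hY)
    a EZ (fun e he => by
      obtain ⟨e', he', rfl⟩ := Finset.mem_image.1 he
      obtain ⟨h1, h2⟩ := hE e' he'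
      exact ⟨by exact_mod_cast h1, by exact_mod_cast h2⟩)
    GG hGG G hG2 hGr hGq R (∑ g ∈ GG, (R g).card) le_rfl K' hK'1
    (fun e g => ∃ e' ∈ E, (e' : ℤ) = e ∧ P e' g ∧ ¬ (g : ℤ) ∣ (e' : ℤ))
    (fun e he g hg hb => by
      obtain ⟨e', he', rfl, hp, -⟩ := hb
      exact (hP e' he' g hg hp).1)
    (fun e he => by
      obtain ⟨e', he', rfl⟩ := Finset.mem_image.1 he
      have h1 := hPK e' he'
      have h2 := hfew e' he'
      have h4 : (GG.filter (fun g => P e' g)).card ≤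
          (GG.filter (fun g : ℕ => (g : ℤ) ∣ (e' : ℤ))).card +
          (GG.filter (fun g => ∃ e'' ∈ E, ((e'' : ℕ) : ℤ) = e' ∧ P e'' g ∧ ¬ (g : ℤ) ∣ (e'' : ℤ))).card := by
        rw [← Finset.card_union_add_card_inter]
        refine le_trans (Finset.card_le_card (fun g hg => ?_)) (Nat.le_add_right _ _)
        rw [Finset.mem_filter] at hg
        rw [Finset.mem_union, Finset.mem_filter, Finset.mem_filter]
        by_cases hd : (g : ℤ) ∣ (e' : ℤ)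
        · exact Or.inl ⟨hg.1, hd⟩
        · exact Or.inr ⟨hg.1, e', he', rfl, hg.2, hd⟩
      omega)
    hcond (by rw [hEZc]; exact hcon)
  rw [hEZc] at hVb hUb hEc
  have hEpos : (0:ℝ) < E.card := lt_of_lt_of_le (by positivity) hcon
  have hE'pos : 0 < E'.card := by
    rcases Nat.eq_zero_or_pos E'.card with h0 | h0
    · rw [h0] at hEc; push_cast at hEc; linarith
    · exact h0
  obtain ⟨eZ, heZ⟩ := Finset.card_pos.1 hE'pos
  obtain ⟨hdvd, hline, hbad⟩ := hE'p eZ heZ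
  obtain ⟨e, he, rfl⟩ := Finset.mem_image.1 (hE' heZ)
  obtain ⟨hYe, heY⟩ := hE e he
  -- a lower bound for the number of good bad primes
  have hKe : K' ≤ (GG.filter (fun g => ∃ e' ∈ E, ((e' : ℕ) : ℤ) = (e : ℤ) ∧ P e' g ∧ ¬ (g : ℤ) ∣ (e' : ℤ))).card := by
    have h1 := hPK e he
    have h2 := hfew e he
    have h4 : (GG.filter (fun g => P e g)).card ≤
        (GG.filter (fun g : ℕ => (g : ℤ) ∣ (e : ℤ))).card +
        (GG.filter (fun g => ∃ e'' ∈ E, ((e'' : ℕ) : ℤ) = e ∧ P e'' g ∧ ¬ (g : ℤ) ∣ (e'' : ℤ))).card := by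
      rw [← Finset.card_union_add_card_inter]
      refine le_trans (Finset.card_le_card (fun g hg => ?_)) (Nat.le_add_right _ _)
      rw [Finset.mem_filter] at hg
      rw [Finset.mem_union, Finset.mem_filter, Finset.mem_filter]
      by_cases hd : (g : ℤ) ∣ (e : ℤ)
      · exact Or.inl ⟨hg.1, hd⟩
      · exact Or.inr ⟨hg.1, e, he, rfl, hg.2, hd⟩
    omega
  set Gd := GG.filter (fun g => (∃ e' ∈ E, ((e' : ℕ) : ℤ) = (e : ℤ) ∧ P e' g ∧ ¬ (g : ℤ) ∣ (e' : ℤ)) ∧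
    (g : ℤ) ∣ V * a - U) with hGd
  have hGdc : K' ≤ 2 * Gd.card := by omega
  -- reduction of the fraction
  set c : ℤ := ((Int.gcd U V : ℕ) : ℤ) with hc
  have hcpos : 0 < c := by
    rw [hc]; exact_mod_cast Int.gcd_pos_of_ne_zero_right U (by omega)
  obtain ⟨U', hU'⟩ : c ∣ U := Int.gcd_dvd_left U V
  obtain ⟨V', hV'⟩ : c ∣ V := Int.gcd_dvd_right U V
  have hcop' : IsCoprime U' V' := by
    refine ⟨U.gcdA V, U.gcdB V, ?_⟩
    have h1 := Int.gcd_eq_gcd_ab U V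
    have h2 : c * (U.gcdA V * U' + U.gcdB V * V') = c * 1 := by
      calc c * (U.gcdA V * U' + U.gcdB V * V') = (c * U') * U.gcdA V + (c * V') * U.gcdB V := by ring
        _ = U * U.gcdA V + V * U.gcdB V := by rw [← hU', ← hV']
        _ = c * 1 := by rw [mul_one, hc, h1]
    exact mul_left_cancel₀ hcpos.ne' h2
  have hV'pos : 1 ≤ V' := by
    by_contra hneg
    push Not at hneg
    have : V ≤ 0 := by
      rw [hV']
      exact mul_nonpos_of_nonneg_of_nonpos hcpos.le (by omega)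
    omega
  have hVle : (V:ℝ) ≤ (Y : ℝ) ^ ((1 : ℝ) / 5) := by
    refine hVb.trans ?_
    rw [div_le_iff₀ hEpos, hY20]
    have hE90 : t ^ 90 ≤ E.card := by rw [← hY90]; exact hcon
    have hq2 : (q:ℝ) ^ 2 ≤ t ^ 2 := pow_le_pow_left₀ (by linarith) hqt 2
    calc 32 * (q:ℝ) ^ 2 * Y ≤ 32 * t ^ 2 * t ^ 100 := by
          rw [← hY100]
          exact mul_le_mul_of_nonneg_right (mul_le_mul_of_nonneg_left hq2 (by norm_num)) hYpos.le
      _ ≤ t ^ 20 * t ^ 90 := by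
          have h1 : 32 * t ^ 2 * t ^ 100 = 32 * t ^ 102 := by ring
          have h2 : t ^ 20 * t ^ 90 = t ^ 8 * t ^ 102 := by ring
          rw [h1, h2]
          have : 32 ≤ t ^ 8 := by
            calc (32:ℝ) ≤ t := by linarith [show (32:ℝ) ≤ 10 ^ 6 by norm_num]
              _ = t ^ 1 := (pow_one _).symm
              _ ≤ t ^ 8 := pow_le_pow_right₀ ht1 (by norm_num)
          gcongr
      _ ≤ t ^ 20 * E.card := by gcongr
  have hUle : |(U:ℝ)| ≤ (Y : ℝ) ^ ((6 : ℝ) / 5) := by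
    refine hUb.trans ?_
    rw [div_le_iff₀ hEpos, hY120]
    have hE90 : t ^ 90 ≤ E.card := by rw [← hY90]; exact hcon
    have hq2 : (q:ℝ) ^ 2 ≤ t ^ 2 := pow_le_pow_left₀ (by linarith) hqt 2
    calc 192 * (q:ℝ) ^ 2 * (Y:ℝ) ^ 2 ≤ 192 * t ^ 2 * (t ^ 100) ^ 2 := by
          rw [← hY100]
          exact mul_le_mul_of_nonneg_right (mul_le_mul_of_nonneg_left hq2 (by norm_num)) (by positivity)
      _ ≤ t ^ 120 * t ^ 90 := by
          have h1 : 192 * t ^ 2 * (t ^ 100) ^ 2 = 192 * t ^ 202 := by ring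
          have h2 : t ^ 120 * t ^ 90 = t ^ 8 * t ^ 202 := by ring
          rw [h1, h2]
          have : 192 ≤ t ^ 8 := by
            calc (192:ℝ) ≤ t := by linarith [show (192:ℝ) ≤ 10 ^ 6 by norm_num]
              _ = t ^ 1 := (pow_one _).symm
              _ ≤ t ^ 8 := pow_le_pow_right₀ ht1 (by norm_num)
          gcongr
      _ ≤ t ^ 120 * E.card := by gcongr
  have hc1 : (1:ℝ) ≤ c := by exact_mod_cast hcpos
  have hVr : (0:ℝ) < V := by exact_mod_cast (by omega : 0 < V)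
  have hV'V : (V':ℝ) ≤ V := by
    have h1 : (V:ℝ) = c * V' := by rw [hV']; push_cast; ring
    have h2 : (0:ℝ) < V' := by exact_mod_cast (by omega : 0 < V')
    nlinarith
  have hcV : (c:ℝ) ≤ V := by
    have h1 : (V:ℝ) = c * V' := by rw [hV']; push_cast; ring
    have h2 : (1:ℝ) ≤ V' := by exact_mod_cast hV'pos
    nlinarith
  have hU'U : |(U':ℝ)| ≤ |(U:ℝ)| := by
    have h1 : (U:ℝ) = c * U' := by rw [hU']; push_cast; ring
    rw [h1, abs_mul, abs_of_pos (by linarith : (0:ℝ) < c)]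
    nlinarith [abs_nonneg (U':ℝ)]
  -- c divides e
  have hce : c ∣ (e : ℤ) := by
    have h1 : c ∣ S * (e : ℤ) := by
      have : S * (e : ℤ) = V * (a % (e : ℤ)) - U := by rw [hline]; ring
      rw [this, hV', hU']
      exact ⟨V' * (a % e) - U', by ring⟩
    have h2 : IsCoprime c S := by
      rw [hV'] at hcop
      exact hcop.of_mul_left_left
    exact h2.dvd_of_dvd_mul_left h1
  have hred : V * a - U = c * (V' * a - U') := by rw [hV', hU']; ring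
  have hgred : ∀ g ∈ Gd, (g : ℤ) ∣ V' * a - U' := by
    intro g hg
    rw [hGd, Finset.mem_filter] at hg
    obtain ⟨hgG, ⟨e', he', hee, -, hnd⟩, hdv⟩ := hg
    rw [hee] at hnd
    have hpr : Prime (g : ℤ) := Nat.prime_iff_prime_int.mp (hGG g hgG)
    rw [hred] at hdv
    rcases hpr.dvd_or_dvd hdv with h1 | h1
    · exact absurd (h1.trans hce) hnd
    · exact h1
  have hcount : k ≤ (GG.filter (fun g : ℕ => (g : ℤ) ∣ V' * a - U')).card := by
    have h1 : Gd.card ≤ (GG.filter (fun g : ℕ => (g : ℤ) ∣ V' * a - U')).card := by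
      refine Finset.card_le_card (fun g hg => ?_)
      rw [Finset.mem_filter]
      refine ⟨?_, hgred g hg⟩
      rw [hGd, Finset.mem_filter] at hg
      exact hg.1
    omega
  have hτ : ((U', V') : ℤ × ℤ) ∈ LL := by
    rw [hmem]
    exact ⟨⟨hV'pos, hV'V.trans hVle, hU'U.trans hUle⟩, hcop', hcount⟩
  have hGdpos : 0 < Gd.card := by omega
  obtain ⟨g, hg⟩ := Finset.card_pos.1 hGdpos
  have hg' := hg
  rw [hGd, Finset.mem_filter] at hg'
  obtain ⟨hgG, ⟨e', he', hee, hPg, -⟩, -⟩ := hg'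
  have hee' : e' = e := by exact_mod_cast hee
  subst hee'
  refine (hP e' he g hgG hPg).2 ⟨(U', V'), hτ, hgred g hg, Int.gcd U V, ?_, ?_, ?_, ?_⟩
  · have : 0 < (Int.gcd U V : ℕ) := Int.gcd_pos_of_ne_zero_right U (by omega)
    omega
  · have : ((Int.gcd U V : ℕ) : ℝ) = (c:ℝ) := by rw [hc]; push_cast; rfl
    rw [this]
    exact hcV.trans hVle
  · have : ((Int.gcd U V : ℕ) : ℤ) ∣ ((e' : ℕ) : ℤ) := hce
    exact_mod_cast this
  · have h1 : ((Int.gcd U V : ℕ) : ℤ) * (V' * a - U') = V * a - U := by rw [hred]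
    simp only
    rw [h1]
    exact hdvd

end Crest.Agent.R1.ST
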